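import Mathlib
import Crest.Prelude.Def_AsymptoticConvexity

set_option autoImplicit false

namespace Crest.Agent.H0125
open Crest.AnalysisR Filter Topology

/-- The bundled Banach space of a type with instances. -/
abbrev bX (X : Type) [iN : NormedAddCommGroup X] [iS : NormedSpace ℝ X] [iC : CompleteSpace X] :
    RealBanach := ⟨X, iN, iS, iC⟩

section General
variable {X : Type*} [NormedAddCommGroup X] [NormedSpace ℝ X]

/-- closed subspace of finite codimension -/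
def Cof (S : Submodule ℝ X) : Prop := IsClosed (S : Set X) ∧ FiniteDimensional ℝ (X ⧸ S)

lemma cof_ker {Y : Type*} [NormedAddCommGroup Y] [NormedSpace ℝ Y] [FiniteDimensional ℝ Y]
    (T : X →L[ℝ] Y) : Cof (LinearMap.ker (T : X →ₗ[ℝ] Y)) := by
  refine ⟨T.isClosed_ker, ?_⟩
  exact (LinearMap.quotKerEquivRange (T : X →ₗ[ℝ] Y)).symm.finiteDimensional

lemma cof_top : Cof (⊤ : Submodule ℝ X) := by
  refine ⟨by simp, inferInstance⟩

lemma cof_inf {S T : Submodule ℝ X} (hS : Cof S) (hT : Cof T) : Cof (S ⊓ T) := by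
  have := hS.2; have := hT.2
  refine ⟨hS.1.inter hT.1, ?_⟩
  have hk : LinearMap.ker (S.mkQ.prod T.mkQ) = S ⊓ T := by simp [LinearMap.ker_prod]
  rw [← hk]
  exact (LinearMap.quotKerEquivRange (S.mkQ.prod T.mkQ)).symm.finiteDimensional

/-- kernel of finitely many functionals -/
lemma cof_fin {ι : Type*} (A : Finset ι) (φ : ι → X →L[ℝ] ℝ) :
    ∃ S : Submodule ℝ X, Cof S ∧ ∀ y ∈ S, ∀ i ∈ A, φ i y = 0 := by
  classical
  induction A using Finset.induction_on with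
  | empty => exact ⟨⊤, cof_top, by simp⟩
  | insert a A _ ih =>
    obtain ⟨S, hS, h⟩ := ih
    refine ⟨S ⊓ LinearMap.ker (φ a : X →ₗ[ℝ] ℝ), cof_inf hS (cof_ker _), ?_⟩
    intro y hy i hi
    rcases Finset.mem_insert.1 hi with rfl | hi
    · exact hy.2
    · exact h y hy.1 i hi

lemma near_of_quot {S : Submodule ℝ X} (hS : IsClosed (S : Set X)) (v : X) {ε : ℝ}
    (h : ‖(Submodule.Quotient.mk v : X ⧸ S)‖ < ε) : ∃ w ∈ S, ‖v - w‖ < ε := by
  obtain ⟨m, hm, hlt⟩ := Submodule.Quotient.norm_mk_lt (Submodule.Quotient.mk v : X ⧸ S)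
    (sub_pos.2 h)
  refine ⟨v - m, ?_, by simpa using hlt⟩
  rw [← Submodule.Quotient.eq]; exact hm.symm

/-- a cofinite subspace is approximately the kernel of a map to a Euclidean space -/
lemma cof_euclid {S : Submodule ℝ X} (hS : Cof S) :
    ∃ (k : ℕ) (T : X →L[ℝ] EuclideanSpace ℝ (Fin k)), ∀ ε : ℝ, 0 < ε → ∃ η : ℝ, 0 < η ∧
      ∀ v, ‖T v‖ ≤ η → ∃ w ∈ S, ‖v - w‖ < ε := by
  have := hS.2
  have : IsClosed (S : Set X) := hS.1
  let e := (toEuclidean : (X ⧸ S) ≃L[ℝ] EuclideanSpace ℝ (Fin (Module.finrank ℝ (X ⧸ S))))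
  refine ⟨_, e.toContinuousLinearMap.comp S.mkQL, fun ε hε => ?_⟩
  set K := ‖(e.symm : EuclideanSpace ℝ (Fin (Module.finrank ℝ (X ⧸ S))) →L[ℝ] (X ⧸ S))‖ with hK
  have hK0 : 0 ≤ K := ContinuousLinearMap.opNorm_nonneg _
  refine ⟨ε / (K + 1), by positivity, fun v hv => near_of_quot hS.1 v ?_⟩
  have h1 : (Submodule.Quotient.mk v : X ⧸ S) =
      (e.symm : EuclideanSpace ℝ (Fin (Module.finrank ℝ (X ⧸ S))) →L[ℝ] (X ⧸ S))
        ((e.toContinuousLinearMap.comp S.mkQL) v) := by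
    simp
  rw [h1]
  refine lt_of_le_of_lt (ContinuousLinearMap.le_opNorm _ _) ?_
  calc K * _ ≤ K * (ε / (K + 1)) := by gcongr
    _ < (K + 1) * (ε / (K + 1)) := by gcongr; linarith
    _ = ε := by field_simp

/-- two members of a bounded sequence differ by an element close to the subspace -/
lemma pair_near {S : Submodule ℝ X} (hS : Cof S) (z : ℕ → X) (C : ℝ) (hz : ∀ n, ‖z n‖ ≤ C)
    {ε : ℝ} (hε : 0 < ε) : ∃ i j, i ≠ j ∧ ∃ w ∈ S, ‖z i - z j - w‖ < ε := by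
  have := hS.2
  have : IsClosed (S : Set X) := hS.1
  have : ProperSpace (X ⧸ S) := FiniteDimensional.proper_real _
  have hb : ∀ n, (Submodule.Quotient.mk (z n) : X ⧸ S) ∈ Metric.closedBall (0 : X ⧸ S) C := by
    intro n
    simpa using (Submodule.Quotient.norm_mk_le S (z n)).trans (hz n)
  obtain ⟨q, -, φ, hφ, hq⟩ := tendsto_subseq_of_bounded Metric.isBounded_closedBall hb
  have hc := hq.cauchySeq
  rw [Metric.cauchySeq_iff] at hc
  obtain ⟨N, hN⟩ := hc ε hε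
  refine ⟨φ (N + 1), φ N, (hφ (Nat.lt_succ_self N)).ne', near_of_quot hS.1 _ ?_⟩
  have := hN (N + 1) (Nat.le_succ N) N le_rfl
  rw [dist_eq_norm] at this
  simpa [Submodule.Quotient.mk_sub] using this

/-- a sequence with square-root growth of partial sums comes close to the subspace -/
lemma seq_near {S : Submodule ℝ X} (hS : Cof S) (y : ℕ → X) (C : ℝ)
    (hy : ∀ A : Finset ℕ, ‖∑ a ∈ A, y a‖ ≤ C * Real.sqrt A.card)
    {ε : ℝ} (hε : 0 < ε) : ∃ n, ∃ w ∈ S, ‖y n - w‖ < ε := by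
  have := hS.2
  have : IsClosed (S : Set X) := hS.1
  have : ProperSpace (X ⧸ S) := FiniteDimensional.proper_real _
  by_contra hcon
  push Not at hcon
  have hge : ∀ n, ε ≤ ‖(Submodule.Quotient.mk (y n) : X ⧸ S)‖ := by
    intro n
    by_contra h
    push Not at h
    obtain ⟨w, hw, hlt⟩ := near_of_quot hS.1 _ h
    exact absurd hlt (not_lt.2 (hcon n w hw))
  have hC : ∀ n, ‖y n‖ ≤ C := by
    intro n
    simpa using hy {n}
  have hC0 : 0 ≤ C := (norm_nonneg _).trans (hC 0)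
  have hb : ∀ n, (Submodule.Quotient.mk (y n) : X ⧸ S) ∈ Metric.closedBall (0 : X ⧸ S) C := by
    intro n
    simpa using (Submodule.Quotient.norm_mk_le S (y n)).trans (hC n)
  obtain ⟨q, -, φ, hφ, hq⟩ := tendsto_subseq_of_bounded Metric.isBounded_closedBall hb
  have hqε : ε ≤ ‖q‖ := ge_of_tendsto' hq.norm (fun n => hge _)
  rw [Metric.tendsto_atTop] at hq
  obtain ⟨N, hN⟩ := hq (ε / 2) (by positivity)
  obtain ⟨m, hm⟩ := exists_nat_gt ((2 * C / ε) ^ 2)
  have hm0 : (0 : ℝ) < m := lt_of_le_of_lt (by positivity) hm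
  let A : Finset ℕ := (Finset.range m).map ⟨fun i => φ (N + i), fun i j h => by
    simpa using hφ.injective h⟩
  have hA : A.card = m := by simp [A]
  have h1 : ‖(Submodule.Quotient.mk (∑ a ∈ A, y a) : X ⧸ S)‖ ≤ C * Real.sqrt m := by
    refine (Submodule.Quotient.norm_mk_le S _).trans ?_
    simpa [hA] using hy A
  have h2 : (Submodule.Quotient.mk (∑ a ∈ A, y a) : X ⧸ S) =
      (m : ℝ) • q + ∑ i ∈ Finset.range m, ((Submodule.Quotient.mk (y (φ (N + i))) : X ⧸ S) - q) := by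
    rw [Finset.sum_sub_distrib, Finset.sum_const, Finset.card_range, ← Nat.cast_smul_eq_nsmul ℝ]
    have : (Submodule.Quotient.mk (∑ a ∈ A, y a) : X ⧸ S) =
        ∑ i ∈ Finset.range m, (Submodule.Quotient.mk (y (φ (N + i))) : X ⧸ S) := by
      rw [← Submodule.mkQ_apply, map_sum]
      simp [A]
    rw [this]; abel
  have h3 : ‖∑ i ∈ Finset.range m, ((Submodule.Quotient.mk (y (φ (N + i))) : X ⧸ S) - q)‖
      ≤ m * (ε / 2) := by
    refine (norm_sum_le _ _).trans ?_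
    calc _ ≤ ∑ _i ∈ Finset.range m, ε / 2 := by
          refine Finset.sum_le_sum fun i _ => ?_
          have := hN (N + i) (Nat.le_add_right _ _)
          rw [dist_eq_norm] at this
          exact this.le
      _ = m * (ε / 2) := by simp
  have h4 : m * ε ≤ ‖(m : ℝ) • q‖ := by
    rw [norm_smul, Real.norm_natCast]; gcongr
  have h5 : ‖(m : ℝ) • q‖ ≤ C * Real.sqrt m + m * (ε / 2) := by
    have : (m : ℝ) • q = (Submodule.Quotient.mk (∑ a ∈ A, y a) : X ⧸ S) -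
        ∑ i ∈ Finset.range m, ((Submodule.Quotient.mk (y (φ (N + i))) : X ⧸ S) - q) := by
      rw [h2]; abel
    rw [this]
    exact (norm_sub_le _ _).trans (add_le_add h1 h3)
  have h6 : 2 * C / ε < Real.sqrt m := Real.lt_sqrt_of_sq_lt hm
  have h7 : Real.sqrt m * Real.sqrt m = m := Real.mul_self_sqrt hm0.le
  have h8 : 0 < Real.sqrt m := Real.sqrt_pos.2 hm0
  rw [div_lt_iff₀ hε] at h6
  nlinarith

lemma not_fd_of_seq (y : ℕ → X) (C δ : ℝ) (hδ : 0 < δ) (h1 : ∀ n, δ ≤ ‖y n‖)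
    (hy : ∀ A : Finset ℕ, ‖∑ a ∈ A, y a‖ ≤ C * Real.sqrt A.card) :
    ¬ FiniteDimensional ℝ X := by
  intro hfd
  have hS : Cof (⊥ : Submodule ℝ X) := ⟨by simp, inferInstance⟩
  obtain ⟨n, w, hw, hlt⟩ := seq_near hS y C hy hδ
  rw [Submodule.mem_bot] at hw
  subst hw
  simp only [sub_zero] at hlt
  exact absurd hlt (not_lt.2 (h1 n))

end General

section Bundled
variable {X : Type} [NormedAddCommGroup X] [NormedSpace ℝ X] [CompleteSpace X]

lemma isCof_of {S : Submodule ℝ X} (hS : Cof S) : (bX X).IsCof (S : Set X) :=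
  ⟨S, rfl, hS.1, hS.2⟩

lemma of_isCof {F : Set X} (hF : (bX X).IsCof F) : ∃ S : Submodule ℝ X, Cof S ∧ (S : Set X) = F := by
  obtain ⟨S, h1, h2, h3⟩ := hF
  exact ⟨S, ⟨h1 ▸ h2, h3⟩, h1⟩

lemma midGE_of {t c : ℝ} (h : ∀ x : X, ‖x‖ = 1 → ∀ η : ℝ, 0 < η → ∃ S : Submodule ℝ X, Cof S ∧
    ∀ y ∈ S, ‖y‖ = 1 → c - η ≤ (‖x + t • y‖ + ‖x - t • y‖) / 2 - 1) :
    (bX X).MidpointModulusGE (bX X).norm t c := by
  intro x hx η hη
  obtain ⟨S, hS, h⟩ := h x hx η hη
  exact ⟨(S : Set X), isCof_of hS, h⟩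

lemma maxGE_of {t c : ℝ} (h : ∀ x : X, ‖x‖ = 1 → ∀ η : ℝ, 0 < η → ∃ S : Submodule ℝ X, Cof S ∧
    ∀ y ∈ S, ‖y‖ = 1 → c - η ≤ max ‖x + t • y‖ ‖x - t • y‖ - 1) :
    (bX X).MaxMidpointModulusGE (bX X).norm t c := by
  intro x hx η hη
  obtain ⟨S, hS, h⟩ := h x hx η hη
  exact ⟨(S : Set X), isCof_of hS, h⟩

lemma oneGE_of {t c : ℝ} (h : ∀ x : X, ‖x‖ = 1 → ∀ η : ℝ, 0 < η → ∃ S : Submodule ℝ X, Cof S ∧
    ∀ y ∈ S, ‖y‖ = 1 → c - η ≤ ‖x + t • y‖ - 1) :
    (bX X).OneSidedModulusGE (bX X).norm t c := by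
  intro x hx η hη
  obtain ⟨S, hS, h⟩ := h x hx η hη
  exact ⟨(S : Set X), isCof_of hS, h⟩

lemma midLE_of {t c : ℝ} (h : ∀ x : X, ‖x‖ = 1 → ∀ S : Submodule ℝ X, Cof S → ∀ η : ℝ, 0 < η →
    ∃ y ∈ S, ‖y‖ = 1 ∧ (‖x + t • y‖ + ‖x - t • y‖) / 2 - 1 ≤ c + η) :
    (bX X).MidpointModulusLE (bX X).norm t c := by
  intro x hx F hF η hη
  obtain ⟨S, hS, rfl⟩ := of_isCof hF
  exact h x hx S hS η hη

lemma oneLE_of {t c : ℝ} (h : ∀ x : X, ‖x‖ = 1 → ∀ S : Submodule ℝ X, Cof S → ∀ η : ℝ, 0 < η →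
    ∃ y ∈ S, ‖y‖ = 1 ∧ ‖x + t • y‖ - 1 ≤ c + η) :
    (bX X).OneSidedModulusLE (bX X).norm t c := by
  intro x hx F hF η hη
  obtain ⟨S, hS, rfl⟩ := of_isCof hF
  exact h x hx S hS η hη

/-- growth lemma: arbitrarily long asymptotic chains of separated points in a bounded shell rule
out an equivalent AUC norm -/
theorem not_auc (good : ℕ → X → Prop) (δ C : ℝ) (hδ : 0 < δ) (h0 : ∀ k, ∃ x, good k x)
    (hb : ∀ k x, good k x → δ ≤ ‖x‖ ∧ ‖x‖ ≤ C)
    (hstep : ∀ k x, good (k + 1) x → ∀ S : Submodule ℝ X, Cof S → ∀ ε : ℝ, 0 < ε →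
      ∃ z, good k z ∧ δ ≤ ‖z - x‖ ∧ ∃ w ∈ S, ‖z - x - w‖ < ε)
    (N : X → ℝ) (hN : (bX X).IsEquivNorm N) : ¬ (bX X).IsAUC N := by
  intro hA
  obtain ⟨hadd, hsm, a, b, ha, hab⟩ := hN
  change ∀ x y : X, N (x + y) ≤ N x + N y at hadd
  change ∀ (a : ℝ) (x : X), N (a • x) = |a| * N x at hsm
  change ∀ x : X, a * ‖x‖ ≤ N x ∧ N x ≤ b * ‖x‖ at hab
  obtain ⟨x0, hx0⟩ := h0 0
  have hx0' := hb 0 x0 hx0
  have hC : 0 < C := by linarith [hx0'.1, hx0'.2]
  have hb0 : 0 < b := by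
    have h1 := (hab x0).1.trans (hab x0).2
    have h2 : 0 < ‖x0‖ := by linarith [hx0'.1]
    have : 0 < b * ‖x0‖ := lt_of_lt_of_le (by positivity) h1
    exact (mul_pos_iff_of_pos_right h2).1 this
  obtain ⟨c, hc, hA⟩ := hA (a * δ / (2 * b * C)) (by positivity)
  set t := a * δ / (2 * b * C) with ht
  have ht0 : 0 < t := by positivity
  change ∀ x : X, N x = 1 → ∃ F : Set X, (bX X).IsCof F ∧
    ∀ y ∈ F, N y = 1 → c ≤ N (x + t • y) - 1 at hA
  have step : ∀ k x, good (k + 1) x → ∃ z, good k z ∧ N x + a * δ * c / 2 ≤ N z := by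
    intro k x hx
    have hxb := hb _ _ hx
    have hr1 : a * δ ≤ N x := le_trans (by gcongr; exact hxb.1) (hab x).1
    have hr2 : N x ≤ b * C := (hab x).2.trans (by gcongr; exact hxb.2)
    have hr0 : 0 < N x := lt_of_lt_of_le (by positivity) hr1
    obtain ⟨F, hF, hFy⟩ := hA ((N x)⁻¹ • x) (by
      rw [hsm, abs_of_pos (inv_pos.2 hr0), inv_mul_cancel₀ hr0.ne'])
    obtain ⟨S, hS, rfl⟩ := of_isCof hF
    obtain ⟨z, hz, hzx, w, hw, hlt⟩ := hstep k x hx S hS (min (δ / 2) (a * δ * c / (2 * b)))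
      (by positivity)
    have hlt1 : ‖z - x - w‖ < δ / 2 := hlt.trans_le (min_le_left _ _)
    have hlt2 : ‖z - x - w‖ < a * δ * c / (2 * b) := hlt.trans_le (min_le_right _ _)
    have hw1 : δ / 2 ≤ ‖w‖ := by
      have : ‖z - x‖ ≤ ‖z - x - w‖ + ‖w‖ := by
        simpa using norm_add_le (z - x - w) w
      linarith
    have hNw : a * δ / 2 ≤ N w := by
      have := (hab w).1
      have h2 : a * (δ / 2) ≤ a * ‖w‖ := by gcongr
      linarith
    have hNw0 : 0 < N w := lt_of_lt_of_le (by positivity) hNw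
    have hy := hFy ((N w)⁻¹ • w) (S.smul_mem _ hw) (by
      rw [hsm, abs_of_pos (inv_pos.2 hNw0), inv_mul_cancel₀ hNw0.ne'])
    -- convexity
    set r := N x with hr
    set q := N w with hq
    set l := t * r / q with hl
    have hl0 : 0 < l := by positivity
    have hl1 : l ≤ 1 := by
      rw [hl, div_le_one hNw0]
      calc t * r ≤ t * (b * C) := by gcongr
        _ = a * δ / 2 := by rw [ht]; field_simp
        _ ≤ q := hNw
    have hid : r⁻¹ • x + t • q⁻¹ • w = (r⁻¹ * (1 - l)) • x + (r⁻¹ * l) • (x + w) := by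
      have : r⁻¹ * l = t * q⁻¹ := by rw [hl]; field_simp
      rw [smul_add, smul_smul, ← add_assoc, ← add_smul, this, ← this]
      congr 2; ring
    rw [hid] at hy
    have h3 := hadd ((r⁻¹ * (1 - l)) • x) ((r⁻¹ * l) • (x + w))
    rw [hsm, hsm, abs_of_nonneg (mul_nonneg (inv_pos.2 hr0).le (by linarith)),
      abs_of_nonneg (mul_nonneg (inv_pos.2 hr0).le hl0.le)] at h3
    have h4 : r⁻¹ * (1 - l) * r = 1 - l := by field_simp
    rw [← hr, h4] at h3
    have h5 : c + l ≤ r⁻¹ * l * N (x + w) := by linarith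
    have h6 : r * (c + l) ≤ l * N (x + w) := by
      calc r * (c + l) ≤ r * (r⁻¹ * l * N (x + w)) := by gcongr
        _ = l * N (x + w) := by field_simp
    have h7 : r + r * c ≤ N (x + w) := by
      have : l * (r + r * c) ≤ l * N (x + w) := by
        have : l * (r * c) ≤ 1 * (r * c) := by gcongr
        linarith
      exact le_of_mul_le_mul_left this hl0
    have h8 : N (x + w) ≤ N z + N (-(z - x - w)) := by
      have := hadd z (-(z - x - w))
      convert this using 2; abel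
    have h9 : N (-(z - x - w)) ≤ a * δ * c / 2 := by
      refine (hab _).2.trans ?_
      rw [norm_neg]
      calc b * ‖z - x - w‖ ≤ b * (a * δ * c / (2 * b)) := by gcongr
        _ = _ := by field_simp
    have h10 : a * δ * c ≤ r * c := by gcongr
    exact ⟨z, hz, by linarith⟩
  have iter : ∀ k x, good k x → N x + k * (a * δ * c / 2) ≤ b * C := by
    intro k
    induction k with
    | zero =>
      intro x hx
      have := (hab x).2.trans (mul_le_mul_of_nonneg_left (hb _ _ hx).2 hb0.le)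
      simpa using this
    | succ k ih =>
      intro x hx
      obtain ⟨z, hz, h⟩ := step k x hx
      have := ih z hz
      push_cast
      linarith
  obtain ⟨k, hk⟩ := exists_nat_gt (b * C / (a * δ * c / 2))
  obtain ⟨x, hx⟩ := h0 k
  have h1 := iter k x hx
  have h2 : 0 ≤ N x := le_trans (by positivity) (hab x).1
  rw [div_lt_iff₀ (by positivity)] at hk
  linarith

/-- tree version of the growth lemma -/
theorem not_auc_tree (p : ℕ → List ℕ → X) (δ C : ℝ) (hδ : 0 < δ)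
    (hb : ∀ n v, v ≠ [] → v.length ≤ n → δ ≤ ‖p n v‖ ∧ ‖p n v‖ ≤ C)
    (hd : ∀ n v a, v ≠ [] → v.length < n → δ ≤ ‖p n (a :: v) - p n v‖)
    (hs : ∀ n v, v ≠ [] → v.length < n → ∀ A : Finset ℕ,
      ‖∑ a ∈ A, (p n (a :: v) - p n v)‖ ≤ C * Real.sqrt A.card)
    (N : X → ℝ) (hN : (bX X).IsEquivNorm N) : ¬ (bX X).IsAUC N := by
  refine not_auc (fun k x => ∃ n v, v ≠ [] ∧ v.length + k ≤ n ∧ x = p n v) δ C hδ ?_ ?_ ?_ N hN
  · intro k
    exact ⟨_, k + 1, [0], by simp, by simp [add_comm], rfl⟩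
  · rintro k x ⟨n, v, hv, hl, rfl⟩
    exact hb n v hv (by omega)
  · rintro k x ⟨n, v, hv, hl, rfl⟩ S hS ε hε
    obtain ⟨a, w, hw, hlt⟩ := seq_near hS (fun a => p n (a :: v) - p n v) C
      (hs n v hv (by omega)) hε
    exact ⟨p n (a :: v), ⟨n, a :: v, by simp, by simp; omega, rfl⟩, hd n v a hv (by omega),
      w, hw, hlt⟩

end Bundled

end Crest.Agent.H0125
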