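import Mathlib
import Crest.Prelude.Def_DaugavetL1
import Crest.Agent.H0125.Basic

set_option autoImplicit false

namespace Crest.Agent.H0125
open Crest.AnalysisR Filter Topology MeasureTheory
open Crest.AnalysisR.L1Subspace

section Abstract
variable {V : Type*} [NormedAddCommGroup V] [NormedSpace ℝ V]

lemma daug_slice_unit (hD : HasDaugavetProperty V) (ψ : V →L[ℝ] ℝ) (hψ : ‖ψ‖ = 1) (w : V)
    (hw : ‖w‖ = 1) {η : ℝ} (hη : 0 < η) :
    ∃ u : V, ‖u‖ ≤ 1 ∧ 1 - η ≤ ψ u ∧ 2 - 2 * η ≤ ‖w + u‖ := by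
  have h := hD ψ w
  rw [ContinuousLinearMap.norm_smulRight_apply, hψ, hw] at h
  obtain ⟨u, hu, hlt⟩ := ContinuousLinearMap.exists_lt_apply_of_lt_opNorm
    (ContinuousLinearMap.id ℝ V + ψ.smulRight w) (r := 2 - η) (by rw [h]; linarith)
  have key : ∀ u : V, ‖u‖ < 1 → 2 - η < ‖u + ψ u • w‖ → 0 ≤ ψ u →
      ‖u‖ ≤ 1 ∧ 1 - η ≤ ψ u ∧ 2 - 2 * η ≤ ‖w + u‖ := by
    intro u hu hlt h0
    have h1 : ψ u ≤ 1 := by
      have := ψ.le_opNorm u
      rw [hψ, one_mul, Real.norm_eq_abs] at this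
      linarith [le_abs_self (ψ u)]
    have h2 : ‖u + ψ u • w‖ ≤ ‖u‖ + ψ u := by
      refine (norm_add_le _ _).trans ?_
      rw [norm_smul, hw, mul_one, Real.norm_eq_abs, abs_of_nonneg h0]
    have h3 : ‖u + ψ u • w‖ ≤ ‖w + u‖ + (1 - ψ u) := by
      have : u + ψ u • w = (w + u) - (1 - ψ u) • w := by
        rw [sub_smul, one_smul]; abel
      rw [this]
      refine (norm_sub_le _ _).trans ?_
      rw [norm_smul, hw, mul_one, Real.norm_eq_abs, abs_of_nonneg (by linarith)]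
    refine ⟨hu.le, by linarith, by linarith⟩
  simp only [ContinuousLinearMap.add_apply, ContinuousLinearMap.id_apply,
    ContinuousLinearMap.smulRight_apply] at hlt
  rcases le_total 0 (ψ u) with h0 | h0
  · exact ⟨u, key u hu hlt h0⟩
  · refine ⟨-u, key (-u) (by simpa using hu) ?_ (by simpa using h0)⟩
    have : -u + ψ (-u) • w = -(u + ψ u • w) := by simp; abel
    rw [this, norm_neg]; exact hlt

lemma daug_slice (hD : HasDaugavetProperty V) (φ : V →L[ℝ] ℝ) (w : V)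
    (hw : 1 ≤ ‖w‖) {η : ℝ} (hη : 0 < η) :
    ∃ u : V, ‖u‖ ≤ 1 ∧ ‖φ‖ - η ≤ φ u ∧ ‖w‖ + 1 - η ≤ ‖w + u‖ := by
  have hw0 : 0 < ‖w‖ := by linarith
  obtain ⟨ψ, hψ, hφ⟩ : ∃ ψ : V →L[ℝ] ℝ, ‖ψ‖ = 1 ∧ φ = ‖φ‖ • ψ := by
    by_cases h : φ = 0
    · obtain ⟨g, hg, -⟩ := exists_dual_vector ℝ w hw0.ne'
      exact ⟨g, hg, by simp [h]⟩
    · have : ‖φ‖ ≠ 0 := norm_ne_zero_iff.2 h
      refine ⟨‖φ‖⁻¹ • φ, by rw [norm_smul, norm_inv, norm_norm, inv_mul_cancel₀ this], ?_⟩
      rw [smul_smul, mul_inv_cancel₀ this, one_smul]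
  set r := ‖w‖ with hr
  have hφ0 : 0 ≤ ‖φ‖ := norm_nonneg _
  obtain ⟨u, hu, h1, h2⟩ := daug_slice_unit hD ψ hψ (r⁻¹ • w)
    (by rw [norm_smul, norm_inv, norm_norm, inv_mul_cancel₀ hw0.ne'])
    (η := η / (2 * r + ‖φ‖)) (by positivity)
  set e := η / (2 * r + ‖φ‖) with he
  have he0 : 0 < e := by positivity
  have he1 : e * (2 * r + ‖φ‖) = η := by rw [he]; field_simp
  refine ⟨u, hu, ?_, ?_⟩
  · have : φ u = ‖φ‖ * ψ u := by
      conv_lhs => rw [hφ]
      simp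
    rw [this]
    nlinarith
  · have h3 : r • (r⁻¹ • w + u) = (w + u) + (r - 1) • u := by
      rw [smul_add, smul_smul, mul_inv_cancel₀ hw0.ne', one_smul, sub_smul, one_smul]; abel
    have h4 : r * ‖r⁻¹ • w + u‖ ≤ ‖w + u‖ + (r - 1) := by
      have := norm_add_le (w + u) ((r - 1) • u)
      rw [← h3, norm_smul, norm_smul, Real.norm_eq_abs, Real.norm_eq_abs, abs_of_pos hw0,
        abs_of_nonneg (by linarith)] at this
      nlinarith
    nlinarith

lemma daug_weak (hD : HasDaugavetProperty V) (x : V) (hx : ‖x‖ = 1) {S : Submodule ℝ V}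
    (hS : Cof S) {ε : ℝ} (hε : 0 < ε) :
    ∃ z : V, ‖z‖ ≤ 1 ∧ 2 - ε ≤ ‖z - x‖ ∧ ∃ w ∈ S, ‖z - x - w‖ < ε := by
  wlog hε1 : ε ≤ 1 generalizing ε
  · obtain ⟨z, h1, h2, w, hw, h3⟩ := this one_pos le_rfl
    exact ⟨z, h1, by linarith, w, hw, by linarith⟩
  obtain ⟨k, T, hT⟩ := cof_euclid hS
  obtain ⟨η, hη, hT⟩ := hT ε hε
  obtain ⟨N, hN⟩ := exists_nat_gt (max 1 ((2 + 4 * ‖T‖ ^ 2) / η ^ 2))
  have hN1 : (1 : ℝ) < N := (le_max_left _ _).trans_lt hN
  have hN2 : (2 + 4 * ‖T‖ ^ 2) / η ^ 2 < N := (le_max_right _ _).trans_lt hN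
  have main : ∀ j : ℕ, ∃ s : V, ‖s‖ ≤ j ∧ N + j * (1 - ε) ≤ ‖-(N : ℝ) • x + s‖ ∧
      ‖T (s - (j : ℝ) • x)‖ ^ 2 ≤ j * (2 + 4 * ‖T‖ ^ 2) := by
    intro j
    induction j with
    | zero => exact ⟨0, by simp, by simp [norm_smul, hx], by simp⟩
    | succ j ih =>
      obtain ⟨s, h1, h2, h3⟩ := ih
      set v := T (s - (j : ℝ) • x) with hv
      let φ : V →L[ℝ] ℝ := -((innerSL ℝ v).comp T)
      have hj : (0 : ℝ) ≤ j * (1 - ε) := mul_nonneg (Nat.cast_nonneg _) (by linarith)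
      obtain ⟨u, hu, hu1, hu2⟩ := daug_slice hD φ (-(N : ℝ) • x + s) (by linarith) hε
      refine ⟨s + u, ?_, ?_, ?_⟩
      · push_cast
        exact (norm_add_le _ _).trans (add_le_add h1 hu)
      · rw [← add_assoc]; push_cast; linarith
      · have h4 : T (s + u - ((j + 1 : ℕ) : ℝ) • x) = v + T (u - x) := by
          rw [hv, ← map_add]; congr 1; push_cast; rw [add_smul, one_smul]; abel
        have h5 : φ x ≤ ‖φ‖ := by
          have := φ.le_opNorm x
          rw [hx, mul_one, Real.norm_eq_abs] at this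
          exact (le_abs_self _).trans this
        have h6 : inner ℝ v (T (u - x)) = φ x - φ u := by
          simp [φ, inner_sub_right]; ring
        have h7 : ‖T (u - x)‖ ≤ ‖T‖ * 2 := by
          refine (T.le_opNorm _).trans ?_
          gcongr
          exact (norm_sub_le _ _).trans (by linarith)
        have h8 : ‖T (u - x)‖ ^ 2 ≤ (‖T‖ * 2) ^ 2 := by gcongr
        rw [h4, norm_add_sq_real, h6]
        push_cast
        nlinarith
  obtain ⟨s, h1, h2, h3⟩ := main N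
  have hN0 : (0 : ℝ) < N := by linarith
  have hid : (N : ℝ)⁻¹ • s - x = (N : ℝ)⁻¹ • (s - (N : ℝ) • x) := by
    rw [smul_sub, smul_smul, inv_mul_cancel₀ hN0.ne', one_smul]
  refine ⟨(N : ℝ)⁻¹ • s, ?_, ?_, hT _ ?_⟩
  · rw [norm_smul, norm_inv, Real.norm_natCast, inv_mul_le_iff₀ hN0]; linarith
  · rw [hid, norm_smul, norm_inv, Real.norm_natCast, le_inv_mul_iff₀ hN0]
    have : s - (N : ℝ) • x = -(N : ℝ) • x + s := by rw [neg_smul]; abel
    rw [this]; linarith
  · rw [hid, map_smul, norm_smul, norm_inv, Real.norm_natCast, inv_mul_le_iff₀ hN0]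
    apply le_of_sq_le_sq _ (by positivity)
    rw [div_lt_iff₀ (by positivity)] at hN2
    nlinarith

lemma daug_dir (hD : HasDaugavetProperty V) (x : V) (hx : ‖x‖ = 1) {S : Submodule ℝ V}
    (hS : Cof S) {ε : ℝ} (hε : 0 < ε) :
    ∃ y ∈ S, ‖y‖ = 1 ∧ ∃ z : V, ‖z‖ ≤ 1 ∧ ‖y - (1 / 2 : ℝ) • (z - x)‖ ≤ ε := by
  obtain ⟨z, h1, h2, w, hw, h3⟩ := daug_weak hD x hx hS (ε := min (ε / 2) (1 / 2)) (by positivity)
  set e := min (ε / 2) (1 / 2) with he
  have he1 : e ≤ ε / 2 := min_le_left _ _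
  have he2 : e ≤ 1 / 2 := min_le_right _ _
  have h4 : ‖z - x‖ ≤ 2 := (norm_sub_le _ _).trans (by linarith)
  have h5 : ‖z - x‖ ≤ ‖z - x - w‖ + ‖w‖ := by simpa using norm_add_le (z - x - w) w
  have h6 : ‖w‖ ≤ ‖z - x‖ + ‖z - x - w‖ := by simpa using norm_sub_le (z - x) (z - x - w)
  have hw0 : 0 < ‖w‖ := by linarith
  refine ⟨‖w‖⁻¹ • w, S.smul_mem _ hw,
    by rw [norm_smul, norm_inv, norm_norm, inv_mul_cancel₀ hw0.ne'], z, h1, ?_⟩
  have : ‖w‖⁻¹ • w - (1 / 2 : ℝ) • (z - x) = (‖w‖⁻¹ - 1 / 2) • w - (1 / 2 : ℝ) • (z - x - w) := by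
    rw [sub_smul, smul_sub (1 / 2 : ℝ) (z - x) w]; abel
  rw [this]
  refine (norm_sub_le _ _).trans ?_
  rw [norm_smul, norm_smul, Real.norm_eq_abs, Real.norm_eq_abs]
  have h7 : |‖w‖⁻¹ - 1 / 2| * ‖w‖ = |1 - ‖w‖ / 2| := by
    rw [← abs_of_pos hw0, ← abs_mul, abs_of_pos hw0]; congr 1; field_simp
  have h8 : |1 - ‖w‖ / 2| ≤ e := abs_le.2 ⟨by linarith, by linarith⟩
  rw [h7, abs_of_pos (by norm_num : (0 : ℝ) < 1 / 2)]
  linarith

lemma daug_upper (hD : HasDaugavetProperty V) (x : V) (hx : ‖x‖ = 1) {S : Submodule ℝ V}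
    (hS : Cof S) {t η : ℝ} (ht : 0 < t) (hη : 0 < η) :
    ∃ y ∈ S, ‖y‖ = 1 ∧ ‖x + t • y‖ ≤ max 1 (t - 1) + η ∧ ‖x - t • y‖ ≤ 1 + t := by
  obtain ⟨y, hy, hy1, z, hz, h⟩ := daug_dir hD x hx hS (ε := η / t) (by positivity)
  refine ⟨y, hy, hy1, ?_, ?_⟩
  · have : x + t • y = ((1 - t / 2) • x + (t / 2) • z) + t • (y - (1 / 2 : ℝ) • (z - x)) := by
      module
    rw [this]
    refine (norm_add_le _ _).trans (add_le_add ((norm_add_le _ _).trans ?_) ?_)
    · rw [norm_smul, norm_smul, hx, Real.norm_eq_abs, Real.norm_eq_abs,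
        abs_of_pos (by positivity : 0 < t / 2)]
      have h1 : t / 2 * ‖z‖ ≤ t / 2 := by nlinarith
      rcases abs_cases (1 - t / 2) with h2 | h2
      · exact le_trans (by linarith) (le_max_left _ _)
      · exact le_trans (by linarith) (le_max_right _ _)
    · rw [norm_smul, Real.norm_eq_abs, abs_of_pos ht]
      calc t * _ ≤ t * (η / t) := by gcongr
        _ = η := by field_simp
  · refine (norm_sub_le _ _).trans ?_
    rw [norm_smul, hx, hy1, Real.norm_eq_abs, abs_of_pos ht, mul_one]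

/-- kernel of a norming functional -/
lemma norming_cof (x : V) : ∃ S : Submodule ℝ V, Cof S ∧ ∀ y ∈ S, ‖x‖ ≤ ‖x + y‖ := by
  obtain ⟨g, hg, hgx⟩ := exists_dual_vector'' ℝ x
  refine ⟨_, cof_ker g, fun y hy => ?_⟩
  have hy0 : g y = 0 := hy
  have h1 := g.le_opNorm (x + y)
  rw [map_add, hy0, add_zero, hgx] at h1
  simp only [RCLike.ofReal_real_eq_id, id_eq, norm_norm] at h1
  exact h1.trans (mul_le_of_le_one_left (norm_nonneg _) hg)

end Abstract

theorem daug_not_auc {X : Type} [NormedAddCommGroup X] [NormedSpace ℝ X] [CompleteSpace X]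
    [Nontrivial X] (hD : HasDaugavetProperty X) (N : X → ℝ) (hN : (bX X).IsEquivNorm N) :
    ¬ (bX X).IsAUC N := by
  refine not_auc (fun _ x => ‖x‖ = 1) 1 1 one_pos (fun _ => exists_norm_eq X zero_le_one)
    (fun _ x hx => by simp [hx]) ?_ N hN
  intro _ x hx S hS ε hε
  obtain ⟨z, h1, h2, w, hw, h3⟩ := daug_weak hD x hx hS (ε := min (ε / 2) (1 / 2)) (by positivity)
  set e := min (ε / 2) (1 / 2) with he
  have he1 : e ≤ ε / 2 := min_le_left _ _
  have he2 : e ≤ 1 / 2 := min_le_right _ _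
  have h4 : ‖z - x‖ ≤ ‖z‖ + 1 := by simpa [hx] using norm_sub_le z x
  have hz0 : 0 < ‖z‖ := by linarith
  have h5 : ‖‖z‖⁻¹ • z - z‖ ≤ e := by
    have : ‖z‖⁻¹ • z - z = (‖z‖⁻¹ - 1) • z := by rw [sub_smul, one_smul]
    rw [this, norm_smul, Real.norm_eq_abs]
    have h7 : |‖z‖⁻¹ - 1| * ‖z‖ = |1 - ‖z‖| := by
      rw [← abs_of_pos hz0, ← abs_mul, abs_of_pos hz0]; congr 1; field_simp
    rw [h7]
    exact abs_le.2 ⟨by linarith, by linarith⟩
  refine ⟨‖z‖⁻¹ • z, by rw [norm_smul, norm_inv, norm_norm, inv_mul_cancel₀ hz0.ne'], ?_,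
    w, hw, ?_⟩
  · have := norm_sub_le (‖z‖⁻¹ • z - x) (‖z‖⁻¹ • z - z)
    have h6 : ‖z‖⁻¹ • z - x - (‖z‖⁻¹ • z - z) = z - x := by abel
    rw [h6] at this
    linarith
  · have h6 : ‖z‖⁻¹ • z - x - w = (‖z‖⁻¹ • z - z) + (z - x - w) := by abel
    rw [h6]
    exact (norm_add_le _ _).trans_lt (by linarith)

section L1
variable {Ω : Type} [MeasurableSpace Ω] {P : Measure Ω}

/-- pairing with a bounded measurable function -/
noncomputable def pairL (P : Measure Ω) (h : Ω → ℝ) (hm : Measurable h) (hb : ∀ z, |h z| ≤ 1) :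
    Lp ℝ 1 P →L[ℝ] ℝ :=
  LinearMap.mkContinuous
    { toFun := fun f => ∫ z, f z * h z ∂P
      map_add' := fun f g => by
        have hi : ∀ f : Lp ℝ 1 P, Integrable (fun z => f z * h z) P := fun f =>
          (L1.integrable_coeFn f).mul_bdd hm.aestronglyMeasurable (Eventually.of_forall hb)
        rw [← integral_add (hi f) (hi g)]
        refine integral_congr_ae ?_
        filter_upwards [Lp.coeFn_add f g] with z hz
        rw [hz, Pi.add_apply, add_mul]
      map_smul' := fun c f => by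
        rw [RingHom.id_apply, smul_eq_mul, ← integral_const_mul]
        refine integral_congr_ae ?_
        filter_upwards [Lp.coeFn_smul c f] with z hz
        rw [hz, Pi.smul_apply, smul_eq_mul, mul_assoc] } 1
    (fun f => by
      rw [one_mul, L1.norm_eq_integral_norm]
      refine norm_integral_le_of_norm_le (L1.integrable_coeFn f).norm
        (Eventually.of_forall fun z => ?_)
      rw [norm_mul]
      exact mul_le_of_le_one_right (norm_nonneg _) (hb z))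

lemma pairL_apply (h : Ω → ℝ) (hm : Measurable h) (hb : ∀ z, |h z| ≤ 1) (f : Lp ℝ 1 P) :
    pairL P h hm hb f = ∫ z, f z * h z ∂P := rfl

/-- sign function -/
noncomputable def sgn (g : Ω → ℝ) (z : Ω) : ℝ := if 0 ≤ g z then 1 else -1

lemma sgn_meas {g : Ω → ℝ} (hg : Measurable g) : Measurable (sgn g) :=
  Measurable.ite (measurableSet_le measurable_const hg) measurable_const measurable_const

omit [MeasurableSpace Ω] in
lemma sgn_bd (g : Ω → ℝ) (z : Ω) : |sgn g z| ≤ 1 := by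
  unfold sgn; split_ifs <;> simp

theorem mid_lower [IsProbabilityMeasure P] (E : Submodule ℝ (Lp ℝ 1 P))
    (htb : UnitBallTotallyBoundedInMeasure P E) (x : E) (hx : ‖x‖ = 1) {t η : ℝ} (ht : 0 < t)
    (hη : 0 < η) : ∃ S : Submodule ℝ E, Cof S ∧ ∀ y ∈ S, ‖y‖ = 1 →
      2 + t - 2 * η ≤ ‖x + t • y‖ + ‖x - t • y‖ := by
  have hxi : Integrable (fun z => |(x : Lp ℝ 1 P) z|) P := (L1.integrable_coeFn _).abs
  obtain ⟨δ, hδ, hui⟩ : ∃ δ : ℝ, 0 < δ ∧ ∀ B : Set Ω, P B < ENNReal.ofReal δ →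
      ∫ z in B, |(x : Lp ℝ 1 P) z| ∂P ≤ η / 2 := by
    have h1 := hxi.tendsto_setIntegral_nhds_zero (l := comap P (𝓝 0)) (s := id) tendsto_comap
    have h2 := h1.eventually (ge_mem_nhds (show (0 : ℝ) < η / 2 by positivity))
    rw [eventually_comap, ENNReal.nhds_zero_basis.eventually_iff] at h2
    obtain ⟨d, hd, h2⟩ := h2
    obtain ⟨r, hr0, hr1, hr2⟩ := ENNReal.lt_iff_exists_real_btwn.1 hd
    refine ⟨r, by simpa using hr1, fun B hB => h2 (hB.trans hr2) B rfl⟩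
  obtain ⟨s, -, hs⟩ := htb (min δ (η / (2 * t))) (by positivity)
  obtain ⟨S, hS, hSy⟩ := cof_fin s (fun g : Lp ℝ 1 P =>
    (pairL P (sgn g) (sgn_meas (Lp.stronglyMeasurable g).measurable) (sgn_bd _)).comp E.subtypeL)
  refine ⟨S, hS, fun y hy hy1 => ?_⟩
  obtain ⟨g, hg, hd⟩ := hs y y.2 hy1.le
  have h0 : ∫ z, (y : Lp ℝ 1 P) z * sgn g z ∂P = 0 := hSy y hy g hg
  obtain ⟨a, ⟨ha0, ha1⟩, ha2⟩ := exists_lt_of_csInf_lt (s := {a : ℝ | 0 < a ∧
      P {z | a < abs (((y : Lp ℝ 1 P) : Ω → ℝ) z - (g : Ω → ℝ) z)} < ENNReal.ofReal a})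
    ⟨2, by norm_num, lt_of_le_of_lt prob_le_one (by simp)⟩ hd
  set B := {z | a < abs (((y : Lp ℝ 1 P) : Ω → ℝ) z - (g : Ω → ℝ) z)} with hB
  have hBm : MeasurableSet B := measurableSet_lt measurable_const
    (measurable_abs.comp ((Lp.stronglyMeasurable _).measurable.sub
      (Lp.stronglyMeasurable g).measurable))
  have hBx := hui B (ha1.trans_le (ENNReal.ofReal_le_ofReal (ha2.le.trans (min_le_left _ _))))
  have hat : t * a ≤ η / 2 := by
    have := ha2.le.trans (min_le_right _ _)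
    calc t * a ≤ t * (η / (2 * t)) := by gcongr
      _ = η / 2 := by field_simp
  have hyi : Integrable (fun z => |(y : Lp ℝ 1 P) z|) P := (L1.integrable_coeFn _).abs
  have hys : Integrable (fun z => (y : Lp ℝ 1 P) z * sgn g z) P :=
    (L1.integrable_coeFn _).mul_bdd
      (sgn_meas (Lp.stronglyMeasurable g).measurable).aestronglyMeasurable
      (Eventually.of_forall (sgn_bd _))
  have hnx : ∫ z, |(x : Lp ℝ 1 P) z| ∂P = 1 := by
    rw [← hx, Submodule.coe_norm, L1.norm_eq_integral_norm]; rfl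
  have hny : ∫ z, |(y : Lp ℝ 1 P) z| ∂P = 1 := by
    rw [← hy1, Submodule.coe_norm, L1.norm_eq_integral_norm]; rfl
  have hL : ∫ z, (2 * |(x : Lp ℝ 1 P) z| - 2 * B.indicator (fun z => |(x : Lp ℝ 1 P) z|) z +
      t * (|(y : Lp ℝ 1 P) z| - 2 * a - (y : Lp ℝ 1 P) z * sgn g z)) ∂P =
      2 - 2 * ∫ z in B, |(x : Lp ℝ 1 P) z| ∂P + t * (1 - 2 * a) := by
    rw [integral_add, integral_sub, integral_const_mul, integral_const_mul, integral_const_mul,
      integral_sub, integral_sub, integral_indicator hBm, hnx, hny, h0]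
    · simp
    · exact hyi
    · exact integrable_const _
    · exact hyi.sub (integrable_const _)
    · exact hys
    · exact hxi.const_mul _
    · exact (hxi.indicator hBm).const_mul _
    · exact (hxi.const_mul _).sub ((hxi.indicator hBm).const_mul _)
    · exact ((hyi.sub (integrable_const _)).sub hys).const_mul _
  have hR : ‖x + t • y‖ + ‖x - t • y‖ =
      ∫ z, (|(x : Lp ℝ 1 P) z + t * (y : Lp ℝ 1 P) z| +
        |(x : Lp ℝ 1 P) z - t * (y : Lp ℝ 1 P) z|) ∂P := by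
    rw [Submodule.coe_norm, Submodule.coe_norm, L1.norm_eq_integral_norm,
      L1.norm_eq_integral_norm, ← integral_add (L1.integrable_coeFn _).norm
        (L1.integrable_coeFn _).norm]
    refine integral_congr_ae ?_
    filter_upwards [Lp.coeFn_add (x : Lp ℝ 1 P) (t • (y : Lp ℝ 1 P)),
      Lp.coeFn_sub (x : Lp ℝ 1 P) (t • (y : Lp ℝ 1 P)), Lp.coeFn_smul t (y : Lp ℝ 1 P)]
      with z h1 h2 h3
    simp only [Submodule.coe_add, Submodule.coe_sub, Submodule.coe_smul]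
    rw [h1, h2, Pi.add_apply, Pi.sub_apply, h3, Pi.smul_apply, smul_eq_mul, Real.norm_eq_abs,
      Real.norm_eq_abs]
  have hle : ∫ z, (2 * |(x : Lp ℝ 1 P) z| - 2 * B.indicator (fun z => |(x : Lp ℝ 1 P) z|) z +
      t * (|(y : Lp ℝ 1 P) z| - 2 * a - (y : Lp ℝ 1 P) z * sgn g z)) ∂P ≤
      ∫ z, (|(x : Lp ℝ 1 P) z + t * (y : Lp ℝ 1 P) z| +
        |(x : Lp ℝ 1 P) z - t * (y : Lp ℝ 1 P) z|) ∂P := by
    refine integral_mono (((hxi.const_mul _).sub ((hxi.indicator hBm).const_mul _)).add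
      (((hyi.sub (integrable_const _)).sub hys).const_mul _))
      (((L1.integrable_coeFn _).add ((L1.integrable_coeFn _).const_mul _)).abs.add
        ((L1.integrable_coeFn _).sub ((L1.integrable_coeFn _).const_mul _)).abs) fun z => ?_
    dsimp only
    set p := (x : Lp ℝ 1 P) z
    set q := (y : Lp ℝ 1 P) z with hq
    by_cases hz : z ∈ B
    · rw [Set.indicator_of_mem hz]
      have h1 : 2 * (t * |q|) ≤ |p + t * q| + |p - t * q| := by
        have := abs_sub (p + t * q) (p - t * q)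
        have h2 : |p + t * q - (p - t * q)| = 2 * (t * |q|) := by
          rw [show p + t * q - (p - t * q) = 2 * (t * q) by ring, abs_mul, abs_mul,
            abs_of_pos ht]; simp
        linarith
      have h2 : -(q * sgn g z) ≤ |q| := by
        refine (neg_le_abs _).trans ?_
        rw [abs_mul]; exact mul_le_of_le_one_right (abs_nonneg _) (sgn_bd _ _)
      have h3 : t * (|q| - 2 * a - q * sgn g z) ≤ t * (2 * |q|) := by gcongr; linarith
      linarith
    · rw [Set.indicator_of_notMem hz]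
      have h1 : 2 * |p| ≤ |p + t * q| + |p - t * q| := by
        have := abs_add_le (p + t * q) (p - t * q)
        have h2 : |p + t * q + (p - t * q)| = 2 * |p| := by
          rw [show p + t * q + (p - t * q) = 2 * p by ring, abs_mul]; simp
        linarith
      have h2 : |q - g z| ≤ a := not_lt.1 hz
      have h3 : |q| - 2 * a - q * sgn g z ≤ 0 := by
        rw [abs_le] at h2
        unfold sgn
        split_ifs with h4
        · rcases abs_cases q with h5 | h5 <;> linarith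
        · rcases abs_cases q with h5 | h5 <;> linarith
      have h4 : t * (|q| - 2 * a - q * sgn g z) ≤ 0 := mul_nonpos_of_nonneg_of_nonpos ht.le h3
      linarith
  rw [hL] at hle
  rw [hR]
  linarith

end L1

end Crest.Agent.H0125
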