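import Mathlib
import Crest.Agent.H0125.Basic

set_option autoImplicit false

namespace Crest.Agent.H0125
open Filter Topology

/-- reflexivity in elementary form -/
def Refl (X : Type*) [NormedAddCommGroup X] [NormedSpace ℝ X] : Prop :=
  ∀ Φ : (X →L[ℝ] ℝ) →L[ℝ] ℝ, ∃ x : X, ∀ φ : X →L[ℝ] ℝ, Φ φ = φ x

lemma refl_real : Refl ℝ := by
  intro Φ
  refine ⟨Φ (ContinuousLinearMap.id ℝ ℝ), fun φ => ?_⟩
  have : φ = φ 1 • ContinuousLinearMap.id ℝ ℝ := by ext; simp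
  conv_lhs => rw [this, map_smul]
  have h2 : φ (Φ (ContinuousLinearMap.id ℝ ℝ)) = Φ (ContinuousLinearMap.id ℝ ℝ) * φ 1 := by
    rw [← smul_eq_mul, ← map_smul]; simp
  rw [h2, smul_eq_mul, mul_comm]

lemma Refl.retract {H X : Type*} [NormedAddCommGroup H] [NormedSpace ℝ H] [NormedAddCommGroup X]
    [NormedSpace ℝ X] (hH : Refl H) (J : H →L[ℝ] X) (R : X →L[ℝ] H) (h : ∀ x, J (R x) = x) :
    Refl X := by
  intro Φ
  obtain ⟨z, hz⟩ := hH (Φ.comp ((ContinuousLinearMap.compL ℝ X H ℝ).flip R))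
  refine ⟨J z, fun φ => ?_⟩
  have := hz (φ.comp J)
  simp only [ContinuousLinearMap.comp_apply, ContinuousLinearMap.flip_apply,
    ContinuousLinearMap.compL_apply] at this
  rw [← this]
  congr 1
  ext x
  simp [h]

section Sum
variable {ι : Type*} {X : ι → Type*} [∀ i, NormedAddCommGroup (X i)] [∀ i, NormedSpace ℝ (X i)]

lemma two_toReal : (2 : ENNReal).toReal = ((2 : ℕ) : ℝ) := by norm_num

omit [∀ i, NormedSpace ℝ (X i)] in
lemma l2_hasSum (f : lp X 2) : HasSum (fun i => ‖f i‖ ^ 2) (‖f‖ ^ 2) := by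
  have := lp.hasSum_norm (p := 2) (by norm_num) f
  simpa only [two_toReal, Real.rpow_natCast] using this

omit [∀ i, NormedSpace ℝ (X i)] in
lemma l2_sum_le (f : lp X 2) (A : Finset ι) : ∑ i ∈ A, ‖f i‖ ^ 2 ≤ ‖f‖ ^ 2 :=
  sum_le_hasSum A (fun _ _ => sq_nonneg _) (l2_hasSum f)

omit [∀ i, NormedSpace ℝ (X i)] in
lemma l2_mem {f : ∀ i, X i} {C : ℝ} (h : ∀ A : Finset ι, ∑ i ∈ A, ‖f i‖ ^ 2 ≤ C) : Memℓp f 2 :=
  memℓp_gen' (C := C) fun A => by simpa only [two_toReal, Real.rpow_natCast] using h A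

omit [∀ i, NormedSpace ℝ (X i)] in
lemma l2_norm_le {f : lp X 2} {C : ℝ} (hC : 0 ≤ C)
    (h : ∀ A : Finset ι, ∑ i ∈ A, ‖f i‖ ^ 2 ≤ C ^ 2) : ‖f‖ ≤ C :=
  lp.norm_le_of_forall_sum_le (by norm_num) hC fun A => by
    simpa only [two_toReal, Real.rpow_natCast] using h A

omit [∀ i, NormedSpace ℝ (X i)] in
lemma l2_norm_sum_single [DecidableEq ι] (f : ∀ i, X i) (A : Finset ι) :
    ‖∑ i ∈ A, lp.single 2 i (f i)‖ ^ 2 = ∑ i ∈ A, ‖f i‖ ^ 2 := by
  have := lp.norm_sum_single (p := 2) (by norm_num) f A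
  simpa only [two_toReal, Real.rpow_natCast] using this

lemma cs_le (A : Finset ι) (a b : ι → ℝ) {σ τ : ℝ} (hσ : 0 ≤ σ) (hτ : 0 ≤ τ)
    (ha : ∑ i ∈ A, a i ^ 2 ≤ σ ^ 2) (hb : ∑ i ∈ A, b i ^ 2 ≤ τ ^ 2) :
    ∑ i ∈ A, a i * b i ≤ σ * τ := by
  refine le_trans (le_abs_self _) (abs_le_of_sq_le_sq' ?_ (by positivity)).2 |>.trans le_rfl
  rw [sq_abs]
  refine (Finset.sum_mul_sq_le_sq_mul_sq A a b).trans ?_
  rw [mul_pow]
  gcongr

theorem refl_l2 (hX : ∀ i, Refl (X i)) : Refl (lp X 2) := by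
  classical
  intro Φ
  let π : ∀ i, lp X 2 →L[ℝ] X i := fun i => lp.evalCLM ℝ X 2 i
  let j : ∀ i, X i →L[ℝ] lp X 2 := fun i => lp.singleContinuousLinearMap ℝ X 2 i
  have hπ : ∀ i y, π i y = y i := fun _ _ => rfl
  have hj : ∀ i y, j i y = lp.single 2 i y := fun _ _ => rfl
  choose x hx using fun i => hX i
    (Φ.comp ((ContinuousLinearMap.compL ℝ (lp X 2) (X i) ℝ).flip (π i)))
  have hx' : ∀ i (ψ : X i →L[ℝ] ℝ), Φ (ψ.comp (π i)) = ψ (x i) := fun i ψ => hx i ψ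
  have hxs : ∀ A : Finset ι, ∑ i ∈ A, ‖x i‖ ^ 2 ≤ ‖Φ‖ ^ 2 := by
    intro A
    choose ψ hψ1 hψ2 using fun i => exists_dual_vector'' ℝ (x i)
    simp only [RCLike.ofReal_real_eq_id, id_eq] at hψ2
    set σ := Real.sqrt (∑ i ∈ A, ‖x i‖ ^ 2) with hσ
    have hσ0 : 0 ≤ σ := Real.sqrt_nonneg _
    have hσ2 : σ ^ 2 = ∑ i ∈ A, ‖x i‖ ^ 2 :=
      Real.sq_sqrt (Finset.sum_nonneg fun _ _ => sq_nonneg _)
    let φ : lp X 2 →L[ℝ] ℝ := ∑ i ∈ A, ‖x i‖ • (ψ i).comp (π i)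
    have h1 : ‖φ‖ ≤ σ := by
      refine ContinuousLinearMap.opNorm_le_bound _ hσ0 fun y => ?_
      simp only [φ, _root_.sum_apply, _root_.smul_apply, ContinuousLinearMap.comp_apply, hπ]
      refine (norm_sum_le _ _).trans (le_trans (Finset.sum_le_sum fun i _ => ?_)
        (cs_le A (fun i => ‖x i‖) (fun i => ‖y i‖) hσ0 (norm_nonneg _) hσ2.ge (l2_sum_le y A)))
      rw [norm_smul, norm_norm]
      gcongr
      exact ((ψ i).le_opNorm _).trans (mul_le_of_le_one_left (norm_nonneg _) (hψ1 i))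
    have h2 : Φ φ = σ ^ 2 := by
      simp only [φ, map_sum, map_smul, hx', hψ2, smul_eq_mul, hσ2, sq]
    have h3 := Φ.le_opNorm φ
    rw [h2, Real.norm_eq_abs, abs_of_nonneg (sq_nonneg _)] at h3
    have h4 : ‖Φ‖ * ‖φ‖ ≤ ‖Φ‖ * σ := by gcongr
    rw [← hσ2]
    nlinarith [norm_nonneg Φ, sq_nonneg (‖Φ‖ - σ)]
  let z : lp X 2 := ⟨x, l2_mem hxs⟩
  refine ⟨z, fun φ => ?_⟩
  let a : ι → ℝ := fun i => ‖φ.comp (j i)‖
  have ha0 : ∀ i, 0 ≤ a i := fun i => norm_nonneg _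
  have has : ∀ A : Finset ι, ∑ i ∈ A, a i ^ 2 ≤ (2 * ‖φ‖) ^ 2 := by
    intro A
    have hu : ∀ i, ∃ u : X i, ‖u‖ ≤ 1 ∧ a i / 2 ≤ φ (j i u) := by
      intro i
      rcases (ha0 i).eq_or_lt with h | h
      · exact ⟨0, by simp, by simp [← h]⟩
      · obtain ⟨u, hu1, hu2⟩ := ContinuousLinearMap.exists_lt_apply_of_lt_opNorm (φ.comp (j i))
          (r := a i / 2) (by change a i / 2 < a i; linarith)
        rw [ContinuousLinearMap.comp_apply, Real.norm_eq_abs] at hu2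
        rcases abs_cases (φ (j i u)) with h3 | h3
        · exact ⟨u, hu1.le, by linarith⟩
        · exact ⟨-u, by simpa using hu1.le, by rw [map_neg, map_neg]; linarith⟩
    choose u hu1 hu2 using hu
    set σ := Real.sqrt (∑ i ∈ A, a i ^ 2) with hσ
    have hσ0 : 0 ≤ σ := Real.sqrt_nonneg _
    have hσ2 : σ ^ 2 = ∑ i ∈ A, a i ^ 2 :=
      Real.sq_sqrt (Finset.sum_nonneg fun _ _ => sq_nonneg _)
    have h1 : ‖∑ i ∈ A, lp.single 2 i (a i • u i)‖ ≤ σ := by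
      refine abs_le_of_sq_le_sq' ?_ hσ0 |>.2
      rw [l2_norm_sum_single (fun i => a i • u i), hσ2]
      refine Finset.sum_le_sum fun i _ => ?_
      rw [norm_smul, Real.norm_eq_abs, abs_of_nonneg (ha0 i)]
      have := ha0 i
      gcongr
      exact mul_le_of_le_one_right (ha0 i) (hu1 i)
    have h2 : σ ^ 2 / 2 ≤ φ (∑ i ∈ A, lp.single 2 i (a i • u i)) := by
      rw [map_sum, hσ2, Finset.sum_div]
      refine Finset.sum_le_sum fun i _ => ?_
      rw [← hj, map_smul, map_smul, smul_eq_mul]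
      nlinarith [hu2 i, ha0 i]
    have h3 := (le_abs_self _).trans (φ.le_opNorm (∑ i ∈ A, lp.single 2 i (a i • u i)))
    have h4 : ‖φ‖ * ‖∑ i ∈ A, lp.single 2 i (a i • u i)‖ ≤ ‖φ‖ * σ := by gcongr
    rw [← hσ2]
    nlinarith [norm_nonneg φ, sq_nonneg (2 * ‖φ‖ - σ)]
  have hsum : Summable fun i => a i ^ 2 := summable_of_sum_le (fun _ => sq_nonneg _) has
  have main : ∀ ε : ℝ, 0 < ε → |Φ φ - φ z| ≤ ε * (‖Φ‖ + ‖z‖) := by
    intro ε hε
    obtain ⟨A, hA⟩ := summable_iff_vanishing_norm.1 hsum (ε ^ 2) (by positivity)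
    let ρ : lp X 2 →L[ℝ] ℝ := φ - ∑ i ∈ A, (φ.comp (j i)).comp (π i)
    have hρ : ‖ρ‖ ≤ ε := by
      refine ContinuousLinearMap.opNorm_le_bound _ hε.le fun y => ?_
      have h1 : HasSum (fun i => φ (j i (y i))) (φ y) :=
        φ.hasSum (lp.hasSum_single (by norm_num) y)
      have h2 : ρ y = φ y - ∑ i ∈ A, φ (j i (y i)) := by
        simp only [ρ, _root_.sub_apply, _root_.sum_apply, ContinuousLinearMap.comp_apply, hπ]
      have h3 : Tendsto (fun B : Finset ι => ‖∑ i ∈ B, φ (j i (y i)) - ∑ i ∈ A, φ (j i (y i))‖)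
          atTop (𝓝 ‖ρ y‖) := by
        rw [h2]
        exact (Tendsto.sub_const h1 _).norm
      refine le_of_tendsto h3 ?_
      filter_upwards [eventually_ge_atTop A] with B hB
      rw [← Finset.sum_sdiff hB, add_sub_cancel_right]
      refine (norm_sum_le _ _).trans (le_trans (Finset.sum_le_sum fun i _ => ?_)
        (cs_le (B \ A) a (fun i => ‖y i‖) hε.le (norm_nonneg _) ?_ (l2_sum_le y _)))
      · exact (φ.comp (j i)).le_opNorm _
      · exact (le_abs_self _).trans (hA _ Finset.sdiff_disjoint).le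
    have h1 : Φ φ - φ z = Φ ρ - ρ z := by
      simp only [ρ, map_sub, map_sum, hx', _root_.sub_apply, _root_.sum_apply,
        ContinuousLinearMap.comp_apply, hπ]
      have : ∀ i, z i = x i := fun _ => rfl
      simp only [this]
      ring
    rw [h1]
    refine (abs_sub _ _).trans ?_
    have h2 := Φ.le_opNorm ρ
    have h3 := ρ.le_opNorm z
    rw [Real.norm_eq_abs] at h2 h3
    have h4 : ‖Φ‖ * ‖ρ‖ ≤ ‖Φ‖ * ε := by gcongr
    have h5 : ‖ρ‖ * ‖z‖ ≤ ε * ‖z‖ := by gcongr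
    linarith
  have h0 : |Φ φ - φ z| ≤ 0 := by
    refine le_of_forall_pos_le_add fun ε hε => ?_
    have hK : 0 < ‖Φ‖ + ‖z‖ + 1 := by positivity
    have := main (ε / (‖Φ‖ + ‖z‖ + 1)) (by positivity)
    have h2 : ε / (‖Φ‖ + ‖z‖ + 1) * (‖Φ‖ + ‖z‖) ≤ ε := by
      rw [div_mul_eq_mul_div, div_le_iff₀ hK]; nlinarith
    linarith
  exact sub_eq_zero.1 (abs_nonpos_iff.1 h0)

lemma sep_l2 [Countable ι] [∀ i, TopologicalSpace.SeparableSpace (X i)] :
    TopologicalSpace.SeparableSpace (lp X 2) := by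
  classical
  rw [← TopologicalSpace.isSeparable_univ_iff]
  have h1 : TopologicalSpace.IsSeparable
      (⋃ i, Set.range (lp.singleContinuousLinearMap ℝ X 2 i)) :=
    TopologicalSpace.IsSeparable.iUnion fun i =>
      TopologicalSpace.isSeparable_range (lp.singleContinuousLinearMap ℝ X 2 i).continuous
  refine (h1.span (R := ℝ)).closure.mono fun y _ => ?_
  refine mem_closure_of_tendsto (lp.hasSum_single (by norm_num) y)
    (Eventually.of_forall fun A => ?_)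
  exact Submodule.sum_mem _ fun i _ => Submodule.subset_span (Set.mem_iUnion.2 ⟨i, y i, rfl⟩)

lemma cof_comap {V W : Type*} [NormedAddCommGroup V] [NormedSpace ℝ V] [NormedAddCommGroup W]
    [NormedSpace ℝ W] (T : V →L[ℝ] W) {S : Submodule ℝ W} (hS : Cof S) :
    ∃ S' : Submodule ℝ V, Cof S' ∧ ∀ y ∈ S', T y ∈ S := by
  have := hS.2
  have : IsClosed (S : Set W) := hS.1
  refine ⟨_, cof_ker (S.mkQL.comp T), fun y hy => ?_⟩
  have h : S.mkQL (T y) = 0 := hy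
  simpa using h

/-- the property used for the sum space -/
def Star {V : Type*} [NormedAddCommGroup V] [NormedSpace ℝ V] (x : V) : Prop :=
  ∃ S : Submodule ℝ V, Cof S ∧ ∀ y ∈ S,
    4 * ‖x‖ ^ 2 + ‖y‖ ^ 2 ≤ 2 * (‖x + y‖ ^ 2 + ‖x - y‖ ^ 2)

theorem star_l2 (hX : ∀ i (x : X i) (ε : ℝ), 0 < ε → ∃ x', ‖x - x'‖ < ε ∧ Star x')
    (x : lp X 2) (ε : ℝ) (hε : 0 < ε) : ∃ x', ‖x - x'‖ < ε ∧ Star x' := by
  classical
  have h1 := lp.hasSum_single (by norm_num) x
  obtain ⟨A, hA⟩ := (Metric.tendsto_atTop.1 h1) (ε / 2) (by positivity)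
  replace hA := hA A le_rfl
  rw [dist_comm, dist_eq_norm] at hA
  choose u hu1 hu2 using fun i => hX i (x i) (ε / (2 * (A.card + 1))) (by positivity)
  choose S hS hSy using hu2
  refine ⟨∑ i ∈ A, lp.single 2 i (u i), ?_, ?_⟩
  · have h2 : x - ∑ i ∈ A, lp.single 2 i (u i) = (x - ∑ i ∈ A, lp.single 2 i (x i)) +
        ∑ i ∈ A, lp.single 2 i (x i - u i) := by
      simp only [lp.single_sub, Finset.sum_sub_distrib]; abel
    rw [h2]
    have h3 : ‖∑ i ∈ A, (lp.single 2 i (x i - u i) : lp X 2)‖ ≤ ε / 2 := by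
      refine (norm_sum_le _ _).trans ?_
      calc _ ≤ ∑ _i ∈ A, ε / (2 * (A.card + 1)) := by
            refine Finset.sum_le_sum fun i _ => ?_
            rw [lp.norm_single (by norm_num)]
            exact (hu1 i).le
        _ = A.card * (ε / (2 * (A.card + 1))) := by simp
        _ ≤ (A.card + 1) * (ε / (2 * (A.card + 1))) := by gcongr; linarith
        _ = ε / 2 := by field_simp
    exact (norm_add_le _ _).trans_lt (by linarith)
  · have hS' : ∃ S' : Submodule ℝ (lp X 2), Cof S' ∧ ∀ y ∈ S', ∀ i ∈ A, y i ∈ S i := by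
      clear hA hu1
      induction A using Finset.induction_on with
      | empty => exact ⟨⊤, cof_top, by simp⟩
      | insert a A _ ih =>
        obtain ⟨S', hS', h⟩ := ih
        obtain ⟨S'', hS'', h'⟩ := cof_comap (lp.evalCLM ℝ X 2 a) (hS a)
        refine ⟨S' ⊓ S'', cof_inf hS' hS'', fun y hy i hi => ?_⟩
        rcases Finset.mem_insert.1 hi with rfl | hi
        · exact h' y hy.2
        · exact h y hy.1 i hi
    obtain ⟨S', hS', h⟩ := hS'
    refine ⟨S', hS', fun y hy => ?_⟩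
    set w : lp X 2 := ∑ i ∈ A, lp.single 2 i (u i) with hw
    have hwi : ∀ i, w i = if i ∈ A then u i else 0 := by
      intro i
      simp only [hw, lp.coeFn_sum, lp.coeFn_single, Finset.sum_apply, Finset.sum_pi_single]
    refine hasSum_le (fun i => ?_) (((l2_hasSum w).mul_left 4).add (l2_hasSum y))
      (((l2_hasSum (w + y)).add (l2_hasSum (w - y))).mul_left 2)
    simp only [lp.coeFn_add, lp.coeFn_sub, Pi.add_apply, Pi.sub_apply, hwi]
    split_ifs with hi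
    · exact hSy i _ (h y hy i hi)
    · simp only [norm_zero, zero_add, zero_sub, norm_neg]
      nlinarith [sq_nonneg ‖y i‖]

end Sum

end Crest.Agent.H0125
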