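import Mathlib
import Crest.Prelude.Def_Diamond
import Crest.Agent.H0125.Sum

set_option autoImplicit false

namespace Crest.Agent.H0125
open Crest.AnalysisR Filter Topology

/-- old vertex -/
def vl {k : ℕ} (u : DiamondVertex k) : DiamondVertex (k + 1) := Sum.inl u
/-- new vertex -/
def vr {k : ℕ} (e : DiamondEdge k) (i : ℕ) : DiamondVertex (k + 1) := Sum.inr (e, i)
/-- half edge -/
def he {k : ℕ} (e : DiamondEdge k) (i : ℕ) (b : Bool) : DiamondEdge (k + 1) := (e, i, b)

lemma src_he_false {k : ℕ} (e : DiamondEdge k) (i : ℕ) :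
    diamondSrc (k + 1) (he e i false) = vl (diamondSrc k e) := rfl
lemma tgt_he_false {k : ℕ} (e : DiamondEdge k) (i : ℕ) :
    diamondTgt (k + 1) (he e i false) = vr e i := rfl
lemma src_he_true {k : ℕ} (e : DiamondEdge k) (i : ℕ) :
    diamondSrc (k + 1) (he e i true) = vr e i := rfl
lemma tgt_he_true {k : ℕ} (e : DiamondEdge k) (i : ℕ) :
    diamondTgt (k + 1) (he e i true) = vl (diamondTgt k e) := rfl

lemma edge_cases {k : ℕ} (e : DiamondEdge (k + 1)) :
    ∃ e' i, e = he e' i false ∨ e = he e' i true := by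
  obtain ⟨e', i, b⟩ := e
  cases b
  · exact ⟨e', i, Or.inl rfl⟩
  · exact ⟨e', i, Or.inr rfl⟩

lemma vl_ne_vr {k : ℕ} (u : DiamondVertex k) (e : DiamondEdge k) (i : ℕ) : vl u ≠ vr e i :=
  Sum.inl_ne_inr

lemma src_ne_tgt : ∀ (k : ℕ) (e : DiamondEdge k), diamondSrc k e ≠ diamondTgt k e
  | 0, _ => Bool.false_ne_true
  | k + 1, e => by
    obtain ⟨e', i, rfl | rfl⟩ := edge_cases e
    · exact vl_ne_vr _ _ _
    · exact (vl_ne_vr _ _ _).symm

lemma adj_edge (k : ℕ) (e : DiamondEdge k) :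
    (diamondGraph k).Adj (diamondSrc k e) (diamondTgt k e) := by
  rw [diamondGraph, SimpleGraph.fromRel_adj]
  exact ⟨src_ne_tgt k e, Or.inl ⟨e, rfl, rfl⟩⟩

lemma adj_cases {k : ℕ} {u v : DiamondVertex k} (h : (diamondGraph k).Adj u v) :
    ∃ e, (diamondSrc k e = u ∧ diamondTgt k e = v) ∨ (diamondSrc k e = v ∧ diamondTgt k e = u) := by
  rw [diamondGraph, SimpleGraph.fromRel_adj] at h
  rcases h.2 with ⟨e, h⟩ | ⟨e, h⟩
  · exact ⟨e, Or.inl h⟩
  · exact ⟨e, Or.inr h⟩

lemma diamond_conn : ∀ k : ℕ, (diamondGraph k).Connected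
  | 0 => by
    have : Nonempty (DiamondVertex 0) := ⟨(false : Bool)⟩
    refine ⟨fun u v => ?_⟩
    have h := (adj_edge 0 ()).reachable
    cases u <;> cases v
    · rfl
    · exact h
    · exact h.symm
    · rfl
  | k + 1 => by
    have ih := diamond_conn k
    obtain ⟨u0⟩ := ih.nonempty
    have : Nonempty (DiamondVertex (k + 1)) := ⟨vl u0⟩
    have h0 : ∀ e : DiamondEdge k,
        (diamondGraph (k + 1)).Reachable (vl (diamondSrc k e)) (vl (diamondTgt k e)) := fun e =>
      (adj_edge (k + 1) (he e 0 false)).reachable.trans (adj_edge (k + 1) (he e 0 true)).reachable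
    have h1 : ∀ u v : DiamondVertex k, (diamondGraph (k + 1)).Reachable (vl u) (vl v) := by
      intro u v
      obtain ⟨p⟩ := ih.preconnected u v
      induction p with
      | nil => rfl
      | cons h p ih =>
        refine SimpleGraph.Reachable.trans ?_ ih
        obtain ⟨e, ⟨rfl, rfl⟩ | ⟨rfl, rfl⟩⟩ := adj_cases h
        · exact h0 e
        · exact (h0 e).symm
    have h2 : ∀ w : DiamondVertex (k + 1), (diamondGraph (k + 1)).Reachable (vl u0) w := by
      intro w
      rcases w with u | ⟨e, i⟩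
      · exact h1 u0 u
      · exact (h1 u0 _).trans (adj_edge (k + 1) (he e i false)).reachable
    exact ⟨fun u v => (h2 u).symm.trans (h2 v)⟩

lemma lip_walk {V : Type*} {G : SimpleGraph V} (F : V → ℕ)
    (hF : ∀ a b, G.Adj a b → F b ≤ F a + 1) {a b : V} (p : G.Walk a b) :
    F b ≤ F a + p.length := by
  induction p with
  | nil => simp
  | cons h p ih =>
    have := hF _ _ h
    simp only [SimpleGraph.Walk.length_cons]
    omega

lemma dist_vl (k : ℕ) (u v : DiamondVertex k) :
    2 * diamondDist k u v ≤ diamondDist (k + 1) (vl u) (vl v) := by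
  let F : DiamondVertex (k + 1) → ℕ := fun w =>
    Sum.elim (fun w' => 2 * diamondDist k u w')
      (fun p : DiamondEdge k × ℕ =>
        diamondDist k u (diamondSrc k p.1) + diamondDist k u (diamondTgt k p.1)) w
  have hFl : ∀ w, F (vl w) = 2 * diamondDist k u w := fun _ => rfl
  have hFr : ∀ e i, F (vr e i) =
      diamondDist k u (diamondSrc k e) + diamondDist k u (diamondTgt k e) := fun _ _ => rfl
  have htri : ∀ e : DiamondEdge k,
      diamondDist k u (diamondSrc k e) ≤ diamondDist k u (diamondTgt k e) + 1 ∧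
      diamondDist k u (diamondTgt k e) ≤ diamondDist k u (diamondSrc k e) + 1 := by
    intro e
    have h1 := SimpleGraph.dist_eq_one_iff_adj.2 (adj_edge k e)
    have h2 := SimpleGraph.dist_eq_one_iff_adj.2 (adj_edge k e).symm
    have h3 := (diamond_conn k).dist_triangle (u := u) (v := diamondSrc k e) (w := diamondTgt k e)
    have h4 := (diamond_conn k).dist_triangle (u := u) (v := diamondTgt k e) (w := diamondSrc k e)
    unfold diamondDist
    omega
  have hF : ∀ a b, (diamondGraph (k + 1)).Adj a b → F b ≤ F a + 1 := by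
    intro a b h
    obtain ⟨e, h⟩ := adj_cases h
    obtain ⟨e', i, rfl | rfl⟩ := edge_cases e
    · rw [src_he_false, tgt_he_false] at h
      have := htri e'
      rcases h with ⟨rfl, rfl⟩ | ⟨rfl, rfl⟩ <;> rw [hFl, hFr] <;> omega
    · rw [src_he_true, tgt_he_true] at h
      have := htri e'
      rcases h with ⟨rfl, rfl⟩ | ⟨rfl, rfl⟩ <;> rw [hFl, hFr] <;> omega
  obtain ⟨p, hp⟩ := ((diamond_conn (k + 1)).preconnected (vl u) (vl v)).exists_walk_length_eq_dist
  have := lip_walk F hF p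
  rw [hFl, hFl, hp] at this
  have h0 : diamondDist k u u = 0 := SimpleGraph.dist_self
  unfold diamondDist at *
  omega

lemma dist_vr (k : ℕ) (e : DiamondEdge k) (i j : ℕ) (hij : i ≠ j) :
    2 ≤ diamondDist (k + 1) (vr e i) (vr e j) := by
  refine (diamond_conn (k + 1)).one_lt_dist_of_ne_of_not_adj ?_ ?_
  · intro h
    have := Sum.inr.inj h
    exact hij (Prod.ext_iff.1 this).2
  · intro h
    obtain ⟨e, h⟩ := adj_cases h
    obtain ⟨e', i, rfl | rfl⟩ := edge_cases e
    · rw [src_he_false, tgt_he_false] at h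
      rcases h with ⟨h, -⟩ | ⟨h, -⟩ <;> exact vl_ne_vr _ _ _ h
    · rw [src_he_true, tgt_he_true] at h
      rcases h with ⟨-, h⟩ | ⟨-, h⟩ <;> exact vl_ne_vr _ _ _ h

section
variable {V : Type*} [NormedAddCommGroup V] [NormedSpace ℝ V]

lemma fork (hV : ∀ (x : V) (ε : ℝ), 0 < ε → ∃ x', ‖x - x'‖ < ε ∧ Star x') (x : V) (z : ℕ → V)
    (M s : ℝ) (hs : 0 ≤ s) (h1 : ∀ i, ‖x + z i‖ ≤ M) (h2 : ∀ i, ‖x - z i‖ ≤ M)
    (h3 : ∀ i j, i ≠ j → 2 * s ≤ ‖z i - z j‖) : 4 * ‖x‖ ^ 2 + s ^ 2 ≤ 4 * M ^ 2 := by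
  have hM : 0 ≤ M := (norm_nonneg _).trans (h1 0)
  have main : ∀ ε : ℝ, 0 < ε → 4 * ‖x‖ ^ 2 + s ^ 2 ≤
      4 * (M + 2 * ε) ^ 2 + 10 * ε * (M + 2 * ε) + 5 * ε ^ 2 := by
    intro ε hε
    obtain ⟨x', hx', S, hS, hSy⟩ := hV x ε hε
    obtain ⟨i, j, hij, w, hw, hlt⟩ := pair_near hS z (M + ‖x‖) (fun i => by
      have := norm_sub_le (x + z i) x
      rw [add_sub_cancel_left] at this
      linarith [h1 i]) hε
    set y := (1 / 2 : ℝ) • w with hy
    have h4 := hSy y (S.smul_mem _ hw)
    have h5 : ‖x' + y‖ ≤ M + 2 * ε := by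
      have : x' + y = (1 / 2 : ℝ) • (x + z i) + (1 / 2 : ℝ) • (x - z j) - (x - x') -
          (1 / 2 : ℝ) • (z i - z j - w) := by rw [hy]; module
      rw [this]
      refine (norm_sub_le _ _).trans ?_
      refine (add_le_add_left ((norm_sub_le _ _).trans (add_le_add_left (norm_add_le _ _) _))
        _).trans ?_
      simp only [norm_smul, Real.norm_eq_abs, abs_of_pos (by norm_num : (0 : ℝ) < 1 / 2)]
      linarith [h1 i, h2 j]
    have h6 : ‖x' - y‖ ≤ M + 2 * ε := by
      have : x' - y = (1 / 2 : ℝ) • (x + z j) + (1 / 2 : ℝ) • (x - z i) - (x - x') +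
          (1 / 2 : ℝ) • (z i - z j - w) := by rw [hy]; module
      rw [this]
      refine (norm_add_le _ _).trans ?_
      refine (add_le_add_left ((norm_sub_le _ _).trans (add_le_add_left (norm_add_le _ _) _))
        _).trans ?_
      simp only [norm_smul, Real.norm_eq_abs, abs_of_pos (by norm_num : (0 : ℝ) < 1 / 2)]
      linarith [h1 j, h2 i]
    have h7 : s ≤ ‖y‖ + ε := by
      have h8 : ‖z i - z j‖ ≤ ‖z i - z j - w‖ + ‖w‖ := by
        simpa using norm_add_le (z i - z j - w) w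
      rw [hy, norm_smul, Real.norm_eq_abs, abs_of_pos (by norm_num : (0 : ℝ) < 1 / 2)]
      linarith [h3 i j hij]
    have h8 : ‖x‖ ≤ ‖x'‖ + ε := by
      have : ‖x‖ ≤ ‖x - x'‖ + ‖x'‖ := by simpa using norm_add_le (x - x') x'
      linarith
    have h9 : ‖x'‖ ≤ M + 2 * ε := by
      have := norm_add_le (x' + y) (x' - y)
      rw [show x' + y + (x' - y) = (2 : ℝ) • x' by module, norm_smul, Real.norm_two] at this
      linarith
    have h10 : ‖y‖ ≤ M + 2 * ε := by
      have := norm_sub_le (x' + y) (x' - y)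
      rw [show x' + y - (x' - y) = (2 : ℝ) • y by module, norm_smul, Real.norm_two] at this
      linarith
    have e1 : ‖x' + y‖ ^ 2 ≤ (M + 2 * ε) ^ 2 := by gcongr
    have e2 : ‖x' - y‖ ^ 2 ≤ (M + 2 * ε) ^ 2 := by gcongr
    have e3 : ‖x‖ ^ 2 ≤ (‖x'‖ + ε) ^ 2 := by gcongr
    have e4 : s ^ 2 ≤ (‖y‖ + ε) ^ 2 := by gcongr
    have e5 : ε * ‖x'‖ ≤ ε * (M + 2 * ε) := by gcongr
    have e6 : ε * ‖y‖ ≤ ε * (M + 2 * ε) := by gcongr
    linarith
  have hc : Continuous fun ε : ℝ =>
      4 * (M + 2 * ε) ^ 2 + 10 * ε * (M + 2 * ε) + 5 * ε ^ 2 := by fun_prop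
  have ht := (hc.tendsto 0).mono_left (nhdsWithin_le_nhds (s := Set.Ioi 0))
  have := ge_of_tendsto ht (eventually_nhdsWithin_of_forall fun ε hε => main ε hε)
  simpa using this

theorem diamond_ind (hV : ∀ (x : V) (ε : ℝ), 0 < ε → ∃ x', ‖x - x'‖ < ε ∧ Star x') :
    ∀ (k : ℕ) (f : DiamondVertex k → V) (s Q : ℝ), 0 ≤ s →
      (∀ u v, s * (diamondDist k u v : ℝ) ≤ ‖f u - f v‖) →
      (∀ e, ‖f (diamondSrc k e) - f (diamondTgt k e)‖ ^ 2 ≤ Q) →
      s ^ 2 * (1 + (k : ℝ) / 4) ≤ Q
  | 0, f, s, Q, hs, h1, h2 => by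
    have h3 := h1 (diamondSrc 0 ()) (diamondTgt 0 ())
    have h4 : diamondDist 0 (diamondSrc 0 ()) (diamondTgt 0 ()) = 1 :=
      SimpleGraph.dist_eq_one_iff_adj.2 (adj_edge 0 ())
    rw [h4] at h3
    have h5 : s ^ 2 ≤ ‖f (diamondSrc 0 ()) - f (diamondTgt 0 ())‖ ^ 2 := by
      gcongr; simpa using h3
    simpa using h5.trans (h2 ())
  | k + 1, f, s, Q, hs, h1, h2 => by
    have ih := diamond_ind hV k (fun u => f (vl u)) (2 * s) (4 * Q - s ^ 2) (by positivity)
      (fun u v => by
        refine le_trans ?_ (h1 (vl u) (vl v))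
        have : ((2 * diamondDist k u v : ℕ) : ℝ) ≤ diamondDist (k + 1) (vl u) (vl v) :=
          Nat.cast_le.2 (dist_vl k u v)
        push_cast at this
        nlinarith)
      (fun e => by
        set p := f (vl (diamondSrc k e))
        set q := f (vl (diamondTgt k e))
        have hQ : 0 ≤ Q := (sq_nonneg _).trans (h2 (he e 0 false))
        have h := fork hV ((1 / 2 : ℝ) • (p - q)) (fun i => f (vr e i) - (1 / 2 : ℝ) • (p + q))
          (Real.sqrt Q) s hs (fun i => by
            apply Real.le_sqrt_of_sq_le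
            have := h2 (he e i true)
            rw [src_he_true, tgt_he_true] at this
            convert this using 3; module)
          (fun i => by
            apply Real.le_sqrt_of_sq_le
            have := h2 (he e i false)
            rw [src_he_false, tgt_he_false] at this
            convert this using 3; module)
          (fun i j hij => by
            rw [sub_sub_sub_cancel_right]
            refine le_trans ?_ (h1 _ _)
            have : ((2 : ℕ) : ℝ) ≤ diamondDist (k + 1) (vr e i) (vr e j) :=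
              Nat.cast_le.2 (dist_vr k e i j hij)
            push_cast at this
            nlinarith)
        rw [Real.sq_sqrt hQ, norm_smul, Real.norm_eq_abs,
          abs_of_pos (by norm_num : (0 : ℝ) < 1 / 2)] at h
        linarith)
    push_cast
    linarith

end

end Crest.Agent.H0125
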