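import Mathlib
import Crest.Prelude.Def_TreePotentials
import Crest.Agent.H0125.Basic

set_option autoImplicit false

namespace Crest.Agent.H0125
open Crest.AnalysisR Filter Topology
open Crest.AnalysisR.TreePotential

/-- last ancestor in `T` -/
def anc (T : Finset (List ℕ)) : List ℕ → List ℕ
  | [] => []
  | a :: v => if a :: v ∈ T then a :: v else anc T v

/-- increments of a potential -/
def incr (H : List ℕ → ℝ) : List ℕ → ℝ
  | [] => H []
  | a :: v => H (a :: v) - H v

lemma pot_incr (H : List ℕ → ℝ) (s : List ℕ) : pathPotential (incr H) s = H s := by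
  induction s with
  | nil => rfl
  | cons a v ih => simp [pathPotential, incr, ih]

theorem glue (f g : List ℕ → ℝ) (hf : ∀ s, |pathPotential f s| ≤ 1)
    (hg : ∀ s, |pathPotential g s| ≤ 1) (T : Finset (List ℕ)) (hT0 : [] ∈ T)
    (hT : ∀ a v, a :: v ∈ T → v ∈ T) (α β : ℝ) (hα : |α| ≤ 1) (hβ : |β| ≤ 1) :
    ∃ h₁ h₂ : List ℕ → ℝ, (∀ s, |pathPotential h₁ s| ≤ 1) ∧ (∀ s, |pathPotential h₂ s| ≤ 1) ∧
      (∀ s ∈ T, h₁ s = α * f s ∧ h₂ s = α * f s) ∧
      (∀ s ∉ T, |h₁ s| ≤ |β * g s| ∧ |h₂ s| ≤ |β * g s| ∧ h₁ s - h₂ s = β * g s) := by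
  let φ : List ℕ → ℝ := fun s => α * pathPotential f (anc T s)
  let z : List ℕ → ℝ := fun s => β * (pathPotential g s - pathPotential g (anc T s))
  have hφ : ∀ s, |φ s| ≤ 1 := fun s => by
    simp only [φ, abs_mul]
    exact mul_le_one₀ hα (abs_nonneg _) (hf _)
  have hz : ∀ s, |z s| ≤ 2 := fun s => by
    simp only [z, abs_mul]
    have h1 : |pathPotential g s - pathPotential g (anc T s)| ≤ 2 :=
      (abs_sub _ _).trans (by linarith [hg s, hg (anc T s)])
    have h2 := mul_le_mul hβ h1 (abs_nonneg _) zero_le_one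
    linarith
  have hanc : ∀ s ∈ T, anc T s = s := by
    intro s hs
    cases s with
    | nil => rfl
    | cons a v => simp [anc, hs]
  have hbd : ∀ (ε : ℝ), |ε| = 1 → ∀ s, |φ s * (1 - |z s| / 2) + ε * z s / 2| ≤ 1 := by
    intro ε hε s
    refine (abs_add_le _ _).trans ?_
    rw [abs_mul (φ s), abs_div, abs_mul ε, hε, one_mul, abs_two,
      abs_of_nonneg (by linarith [hz s] : 0 ≤ 1 - |z s| / 2)]
    have : |φ s| * (1 - |z s| / 2) ≤ 1 * (1 - |z s| / 2) := by
      gcongr
      · linarith [hz s]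
      · exact hφ s
    linarith
  have hin : ∀ (ε : ℝ), ∀ s ∈ T,
      incr (fun s => φ s * (1 - |z s| / 2) + ε * z s / 2) s = α * f s := by
    intro ε s hs
    cases s with
    | nil => simp [incr, φ, z, anc, pathPotential]
    | cons a v =>
      simp only [incr, φ, z, hanc _ hs, hanc _ (hT a v hs), pathPotential]
      simp; ring
  have hout : ∀ (ε : ℝ) a v, a :: v ∉ T →
      incr (fun s => φ s * (1 - |z s| / 2) + ε * z s / 2) (a :: v) =
        -(φ v) * (|z v + β * g (a :: v)| - |z v|) / 2 + ε * (β * g (a :: v)) / 2 := by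
    intro ε a v hs
    have h1 : anc T (a :: v) = anc T v := by simp [anc, hs]
    have h2 : φ (a :: v) = φ v := by simp only [φ, h1]
    have h3 : z (a :: v) = z v + β * g (a :: v) := by
      simp only [z, h1, pathPotential]; ring
    simp only [incr, h2, h3]; ring
  have hout2 : ∀ (ε : ℝ), |ε| = 1 → ∀ a v, a :: v ∉ T →
      |incr (fun s => φ s * (1 - |z s| / 2) + ε * z s / 2) (a :: v)| ≤ |β * g (a :: v)| := by
    intro ε hε a v hs
    rw [hout ε a v hs]
    refine (abs_add_le _ _).trans ?_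
    rw [abs_div, abs_div, abs_mul, abs_mul ε, hε, abs_neg, abs_two, one_mul]
    have h1 : |(|z v + β * g (a :: v)| - |z v|)| ≤ |β * g (a :: v)| := by
      simpa using abs_abs_sub_abs_le_abs_sub (z v + β * g (a :: v)) (z v)
    have : |φ v| * |(|z v + β * g (a :: v)| - |z v|)| ≤ 1 * |β * g (a :: v)| := by
      gcongr; exact hφ v
    linarith
  refine ⟨incr (fun s => φ s * (1 - |z s| / 2) + 1 * z s / 2),
    incr (fun s => φ s * (1 - |z s| / 2) + (-1) * z s / 2), ?_, ?_, ?_, ?_⟩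
  · intro s; rw [pot_incr]; exact hbd 1 (by simp) s
  · intro s; rw [pot_incr]; exact hbd (-1) (by simp) s
  · intro s hs; exact ⟨hin 1 s hs, hin (-1) s hs⟩
  · intro s hs
    cases s with
    | nil => exact absurd hT0 hs
    | cons a v =>
      refine ⟨hout2 1 (by simp) a v hs, hout2 (-1) (by simp) a v hs, ?_⟩
      rw [hout 1 a v hs, hout (-1) a v hs]; ring

/-- the indicator family of a vertex -/
def dlt (u : List ℕ) : List ℕ → ℝ := fun s => if s = u then 1 else 0

lemma pot_dlt_short (u s : List ℕ) (h : s.length < u.length) : pathPotential (dlt u) s = 0 := by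
  induction s with
  | nil =>
    have : [] ≠ u := by rintro rfl; simp at h
    simp [pathPotential, dlt, this]
  | cons a v ih =>
    have h1 : a :: v ≠ u := by rintro rfl; simp at h
    have h2 : v.length < u.length := by simp at h; omega
    simp [pathPotential, ih h2, dlt, h1]

lemma pot_dlt_self (u : List ℕ) : pathPotential (dlt u) u = 1 := by
  cases u with
  | nil => simp [pathPotential, dlt]
  | cons a v => simp [pathPotential, pot_dlt_short (a :: v) v (by simp), dlt]

lemma pot_dlt_abs (u s : List ℕ) : |pathPotential (dlt u) s| ≤ 1 := by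
  induction s with
  | nil => simp only [pathPotential, dlt]; split_ifs <;> simp
  | cons a v ih =>
    by_cases h : a :: v = u
    · subst h; rw [pot_dlt_self]; simp
    · simpa [pathPotential, dlt, h] using ih

lemma pot_neg (f : List ℕ → ℝ) (s : List ℕ) : pathPotential (-f) s = -pathPotential f s := by
  induction s with
  | nil => rfl
  | cons a v ih => simp [pathPotential, ih]; ring

lemma sum_dlt_sq {ι : Type*} (u : List ℕ) (A : Finset ι) (j : ι → List ℕ)
    (hj : Function.Injective j) : ∑ a ∈ A, dlt u (j a) ^ 2 ≤ 1 := by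
  classical
  by_cases h : ∃ a ∈ A, j a = u
  · obtain ⟨a, ha, rfl⟩ := h
    rw [Finset.sum_eq_single a]
    · simp [dlt]
    · intro b _ hb
      simp [dlt, hj.ne hb]
    · intro h; exact absurd ha h
  · push Not at h
    rw [Finset.sum_eq_zero]
    · norm_num
    · intro a ha; simp [dlt, h a ha]

/-- a class of tests with the closure properties used -/
structure GoodT (Tst : (List ℕ → ℝ) → Prop) : Prop where
  bd : ∀ f, Tst f → ∀ s, |pathPotential f s| ≤ 1
  zero : Tst 0
  glue : ∀ f g h (α β : ℝ), Tst f → Tst g → α ^ 2 + β ^ 2 ≤ 1 →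
    (∀ s, h s ^ 2 ≤ α ^ 2 * f s ^ 2 + β ^ 2 * g s ^ 2) → (∀ s, |pathPotential h s| ≤ 1) → Tst h
  delta : ∀ u, Tst (dlt u) ∨ ∀ f, Tst f → f u = 0
  sib : ∀ f, Tst f → ∀ v (A : Finset ℕ), ∑ a ∈ A, f (a :: v) ^ 2 ≤ 1

namespace GoodT
variable {Tst : (List ℕ → ℝ) → Prop}

lemma neg (G : GoodT Tst) {f : List ℕ → ℝ} (hf : Tst f) : Tst (-f) :=
  G.glue f f (-f) 1 0 hf hf (by norm_num) (fun s => by simp)
    (fun s => by rw [pot_neg, abs_neg]; exact G.bd f hf s)

lemma abs_le_two (G : GoodT Tst) {f : List ℕ → ℝ} (hf : Tst f) (s : List ℕ) : |f s| ≤ 2 := by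
  have hg := G.bd f hf
  cases s with
  | nil =>
    have h0 := hg []
    simp only [pathPotential] at h0
    linarith
  | cons a v =>
    have h1 := hg (a :: v)
    have h2 := hg v
    simp only [pathPotential] at h1
    rw [abs_le] at h1 h2 ⊢
    constructor <;> linarith [h1.1, h1.2, h2.1, h2.2]

/-- coordinate vector -/
noncomputable def cv (G : GoodT Tst) (s : List ℕ) : lp (fun _ : {f // Tst f} => ℝ) ⊤ :=
  ⟨fun f => f.1 s, memℓp_infty ⟨2, by
    rintro _ ⟨f, rfl⟩
    simpa [Real.norm_eq_abs] using G.abs_le_two f.2 s⟩⟩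

/-- the generated space -/
noncomputable def sp (G : GoodT Tst) : Submodule ℝ (lp (fun _ : {f // Tst f} => ℝ) ⊤) :=
  (Submodule.span ℝ (Set.range G.cv)).topologicalClosure

instance (G : GoodT Tst) : CompleteSpace G.sp :=
  (Submodule.isClosed_topologicalClosure _).completeSpace_coe

/-- coordinate vector in the generated space -/
noncomputable def e (G : GoodT Tst) (s : List ℕ) : G.sp :=
  ⟨G.cv s, Submodule.le_topologicalClosure _ (Submodule.subset_span ⟨s, rfl⟩)⟩

/-- evaluation at a test -/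
noncomputable def ev (G : GoodT Tst) (f : List ℕ → ℝ) (hf : Tst f) : G.sp →L[ℝ] ℝ :=
  (lp.evalCLM ℝ (fun _ : {f // Tst f} => ℝ) ⊤ ⟨f, hf⟩).comp G.sp.subtypeL

@[simp] lemma ev_e (G : GoodT Tst) (f : List ℕ → ℝ) (hf : Tst f) (s : List ℕ) :
    G.ev f hf (G.e s) = f s := rfl

lemma ev_le (G : GoodT Tst) (f : List ℕ → ℝ) (hf : Tst f) (x : G.sp) : |G.ev f hf x| ≤ ‖x‖ :=
  lp.norm_apply_le_norm (p := ⊤) ENNReal.top_ne_zero x.1 ⟨f, hf⟩

lemma norm_le (G : GoodT Tst) (x : G.sp) {C : ℝ} (h : ∀ f hf, |G.ev f hf x| ≤ C) : ‖x‖ ≤ C :=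
  lp.norm_le_of_forall_le ((abs_nonneg _).trans (h 0 G.zero)) fun f => h f.1 f.2

lemma dense_span (G : GoodT Tst) :
    Dense (Submodule.span ℝ (Set.range G.e) : Set G.sp) := by
  rw [Subtype.dense_iff]
  have : (Subtype.val '' (Submodule.span ℝ (Set.range G.e) : Set G.sp)) =
      (Submodule.span ℝ (Set.range G.cv) : Set _) := by
    have h := Submodule.map_span G.sp.subtype (Set.range G.e)
    rw [← Set.range_comp] at h
    exact congrArg SetLike.coe h
  refine subset_of_eq (Eq.trans ?_ (congrArg closure this.symm))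
  rfl

lemma ext_clm (G : GoodT Tst) {Y : Type*} [NormedAddCommGroup Y] [NormedSpace ℝ Y]
    {L L' : G.sp →L[ℝ] Y} (h : ∀ s, L (G.e s) = L' (G.e s)) : L = L' :=
  ContinuousLinearMap.ext_on G.dense_span (by rintro _ ⟨s, rfl⟩; exact h s)

lemma ev_neg (G : GoodT Tst) (f : List ℕ → ℝ) (hf : Tst f) :
    G.ev (-f) (G.neg hf) = -G.ev f hf := G.ext_clm fun s => by simp

lemma exists_ev (G : GoodT Tst) (x : G.sp) {ε : ℝ} (hε : 0 < ε) :
    ∃ f hf, ‖x‖ - ε < G.ev f hf x := by
  by_contra h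
  push Not at h
  have := G.norm_le x (C := ‖x‖ - ε) fun f hf => by
    refine abs_le.2 ⟨?_, h f hf⟩
    have := h _ (G.neg hf)
    rw [G.ev_neg f hf] at this
    simp only [_root_.neg_apply] at this
    linarith
  linarith

instance (G : GoodT Tst) : TopologicalSpace.SeparableSpace G.sp := by
  rw [← TopologicalSpace.isSeparable_univ_iff, ← G.dense_span.closure_eq]
  exact ((Set.countable_range _).isSeparable.span).closure

/-- suffix closure -/
lemma exists_closed (T₀ : Finset (List ℕ)) : ∃ T : Finset (List ℕ), T₀ ⊆ T ∧ [] ∈ T ∧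
    ∀ a v, a :: v ∈ T → v ∈ T := by
  classical
  refine ⟨insert [] (T₀.biUnion fun s => s.tails.toFinset), ?_, by simp, ?_⟩
  · intro s hs
    simp only [Finset.mem_insert, Finset.mem_biUnion, List.mem_toFinset, List.mem_tails]
    exact Or.inr ⟨s, hs, List.suffix_refl s⟩
  · intro a v h
    simp only [Finset.mem_insert, Finset.mem_biUnion, List.mem_toFinset, List.mem_tails] at h ⊢
    rcases h with h | ⟨s, hs, h⟩
    · simp at h
    · exact Or.inr ⟨s, hs, (List.suffix_cons a v).trans h⟩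

theorem key (G : GoodT Tst) (x : G.sp) (hx : x ∈ Submodule.span ℝ (Set.range G.e)) :
    ∃ S : Submodule ℝ G.sp, Cof S ∧ ∀ y ∈ S,
      4 * ‖x‖ ^ 2 + ‖y‖ ^ 2 ≤ (‖x + y‖ + ‖x - y‖) ^ 2 := by
  classical
  obtain ⟨c, rfl⟩ := Finsupp.mem_span_range_iff_exists_finsupp.1 hx
  obtain ⟨T, hT₀, hT0, hT⟩ := exists_closed c.support
  set x := c.sum fun i a => a • G.e i with hxdef
  have hevx : ∀ f hf, G.ev f hf x = ∑ s ∈ c.support, c s * f s := by
    intro f hf
    simp [hxdef, Finsupp.sum, map_sum]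
  let co : List ℕ → G.sp →L[ℝ] ℝ := fun u => if h : Tst (dlt u) then G.ev _ h else 0
  obtain ⟨S, hS, hSy⟩ := cof_fin T co
  refine ⟨S, hS, fun y hy => ?_⟩
  have main : ∀ α β : ℝ, α ^ 2 + β ^ 2 ≤ 1 → ∀ f hf g hg,
      2 * α * G.ev f hf x + β * G.ev g hg y ≤ ‖x + y‖ + ‖x - y‖ := by
    intro α β hαβ f hf g hg
    obtain ⟨h₁, h₂, hb₁, hb₂, hin, hout⟩ := H0125.glue f g (G.bd f hf) (G.bd g hg) T hT0 hT α β
      (by rw [← sq_le_one_iff_abs_le_one]; nlinarith)
      (by rw [← sq_le_one_iff_abs_le_one]; nlinarith)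
    have ht₁ : Tst h₁ := by
      refine G.glue f g h₁ α β hf hg hαβ (fun s => ?_) hb₁
      by_cases hs : s ∈ T
      · rw [(hin s hs).1, mul_pow]; exact le_add_of_nonneg_right (by positivity)
      · have := sq_le_sq.2 (hout s hs).1
        rw [mul_pow] at this
        exact this.trans (le_add_of_nonneg_left (by positivity))
    have ht₂ : Tst h₂ := by
      refine G.glue f g h₂ α β hf hg hαβ (fun s => ?_) hb₂
      by_cases hs : s ∈ T
      · rw [(hin s hs).2, mul_pow]; exact le_add_of_nonneg_right (by positivity)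
      · have := sq_le_sq.2 (hout s hs).2.1
        rw [mul_pow] at this
        exact this.trans (le_add_of_nonneg_left (by positivity))
    have hx₁ : G.ev h₁ ht₁ x = α * G.ev f hf x := by
      rw [hevx, hevx, Finset.mul_sum]
      refine Finset.sum_congr rfl fun s hs => ?_
      rw [(hin s (hT₀ hs)).1]; ring
    have hx₂ : G.ev h₂ ht₂ x = α * G.ev f hf x := by
      rw [hevx, hevx, Finset.mul_sum]
      refine Finset.sum_congr rfl fun s hs => ?_
      rw [(hin s (hT₀ hs)).2]; ring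
    have hL : G.ev h₁ ht₁ - G.ev h₂ ht₂ - β • G.ev g hg =
        ∑ u ∈ T, (h₁ u - h₂ u - β * g u) • co u := by
      refine G.ext_clm fun s => ?_
      simp only [_root_.sub_apply, _root_.smul_apply, ev_e,
        _root_.sum_apply, smul_eq_mul]
      have hco : ∀ u, u ≠ s → co u (G.e s) = 0 := by
        intro u hu
        simp only [co]
        split_ifs
        · simp [dlt, hu.symm]
        · simp
      by_cases hs : s ∈ T
      · rw [Finset.sum_eq_single s (fun u _ hu => by rw [hco u hu, mul_zero])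
          (fun h => absurd hs h)]
        rcases G.delta s with h | h
        · simp [co, h, dlt]
        · rw [h _ ht₁, h _ ht₂, h _ hg]; simp
      · rw [Finset.sum_eq_zero (fun u hu => by
          rw [hco u (by rintro rfl; exact hs hu), mul_zero]), (hout s hs).2.2, sub_self]
    have hy' : G.ev h₁ ht₁ y - G.ev h₂ ht₂ y - β * G.ev g hg y = 0 := by
      have := congrArg (fun L : G.sp →L[ℝ] ℝ => L y) hL
      simp only [_root_.sub_apply, _root_.smul_apply,
        _root_.sum_apply, smul_eq_mul] at this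
      rw [this]
      exact Finset.sum_eq_zero fun u hu => by rw [hSy y hy u hu, mul_zero]
    have e1 := (le_abs_self _).trans (G.ev_le h₁ ht₁ (x + y))
    have e2 := (le_abs_self _).trans (G.ev_le h₂ ht₂ (x - y))
    rw [map_add, hx₁] at e1
    rw [map_sub, hx₂] at e2
    linarith
  have main2 : ∀ α β : ℝ, 0 ≤ α → 0 ≤ β → α ^ 2 + β ^ 2 ≤ 1 →
      2 * α * ‖x‖ + β * ‖y‖ ≤ ‖x + y‖ + ‖x - y‖ := by
    intro α β hα hβ hαβ
    refine le_of_forall_pos_le_add fun ε hε => ?_
    obtain ⟨f, hf, h1⟩ := G.exists_ev x (ε := ε / 3) (by positivity)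
    obtain ⟨g, hg, h2⟩ := G.exists_ev y (ε := ε / 3) (by positivity)
    have h3 := main α β hαβ f hf g hg
    have hα1 : α ≤ 1 := by nlinarith
    have hβ1 : β ≤ 1 := by nlinarith
    nlinarith
  set R := Real.sqrt (4 * ‖x‖ ^ 2 + ‖y‖ ^ 2) with hR
  have hR2 : R ^ 2 = 4 * ‖x‖ ^ 2 + ‖y‖ ^ 2 := Real.sq_sqrt (by positivity)
  rcases (Real.sqrt_nonneg (4 * ‖x‖ ^ 2 + ‖y‖ ^ 2)).eq_or_lt with h0 | h0
  · rw [← hR] at h0
    rw [← hR2, ← h0]; simpa using sq_nonneg _
  · rw [← hR] at h0
    have h1 := main2 (2 * ‖x‖ / R) (‖y‖ / R) (by positivity) (by positivity) (by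
      rw [div_pow, div_pow, ← add_div, div_le_one (by positivity), hR2]; linarith)
    have h2 : 2 * (2 * ‖x‖ / R) * ‖x‖ + ‖y‖ / R * ‖y‖ = R := by
      field_simp; linarith
    rw [h2] at h1
    rw [← hR2]; gcongr

/-- path vector -/
noncomputable def pv (G : GoodT Tst) : List ℕ → G.sp
  | [] => G.e []
  | a :: v => pv G v + G.e (a :: v)

lemma ev_pv (G : GoodT Tst) (f : List ℕ → ℝ) (hf : Tst f) (s : List ℕ) :
    G.ev f hf (G.pv s) = pathPotential f s := by
  induction s with
  | nil => rfl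
  | cons a v ih => simp [pv, pathPotential, ih]

lemma norm_pv_le (G : GoodT Tst) (s : List ℕ) : ‖G.pv s‖ ≤ 1 :=
  G.norm_le _ fun f hf => by rw [ev_pv]; exact G.bd f hf s

lemma norm_pv_ge (G : GoodT Tst) (s : List ℕ) (hs : Tst (dlt s)) : 1 ≤ ‖G.pv s‖ := by
  have := G.ev_le _ hs (G.pv s)
  rwa [ev_pv, pot_dlt_self, abs_one] at this

lemma pv_sub (G : GoodT Tst) (a : ℕ) (v : List ℕ) : G.pv (a :: v) - G.pv v = G.e (a :: v) := by
  simp [pv]

lemma norm_e_ge (G : GoodT Tst) (s : List ℕ) (hs : Tst (dlt s)) : 1 ≤ ‖G.e s‖ := by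
  have := G.ev_le _ hs (G.e s)
  simpa [dlt] using this

lemma norm_sum_e (G : GoodT Tst) (v : List ℕ) (A : Finset ℕ) :
    ‖∑ a ∈ A, G.e (a :: v)‖ ≤ 1 * Real.sqrt A.card := by
  refine G.norm_le _ fun f hf => ?_
  rw [map_sum, one_mul]
  simp only [ev_e]
  apply Real.abs_le_sqrt
  refine sq_sum_le_card_mul_sum_sq.trans ?_
  exact mul_le_of_le_one_right (by positivity) (G.sib f hf v A)

end GoodT

lemma sqrt_lip (r c : ℝ) (hc : 0 ≤ c) : Real.sqrt (1 + c) ≤ Real.sqrt (r ^ 2 + c) + |1 - r| := by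
  have hA : |r| ≤ Real.sqrt (r ^ 2 + c) := Real.abs_le_sqrt (by linarith)
  have hA2 : Real.sqrt (r ^ 2 + c) ^ 2 = r ^ 2 + c := Real.sq_sqrt (by positivity)
  rw [Real.sqrt_le_left (by positivity)]
  have h1 : 1 ≤ |r| + |1 - r| := by
    have := abs_add_le r (1 - r)
    simpa using this
  have h2 : |r| ^ 2 = r ^ 2 := sq_abs r
  nlinarith [abs_nonneg r, abs_nonneg (1 - r)]

end Crest.Agent.H0125
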