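import Mathlib
import Crest.Agent.H0125.Model

set_option autoImplicit false

namespace Crest.Agent.H0125
open Crest.AnalysisR Filter Topology
open Crest.AnalysisR.TreePotential

lemma sum_glue {ι : Type*} (A : Finset ι) (f g h : ι → ℝ) (α β : ℝ) (hαβ : α ^ 2 + β ^ 2 ≤ 1)
    (hh : ∀ s, h s ^ 2 ≤ α ^ 2 * f s ^ 2 + β ^ 2 * g s ^ 2) (hf : ∑ s ∈ A, f s ^ 2 ≤ 1)
    (hg : ∑ s ∈ A, g s ^ 2 ≤ 1) : ∑ s ∈ A, h s ^ 2 ≤ 1 := by
  refine (Finset.sum_le_sum fun s _ => hh s).trans ?_
  rw [Finset.sum_add_distrib, ← Finset.mul_sum, ← Finset.mul_sum]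
  nlinarith [sq_nonneg α, sq_nonneg β]

lemma pot_zero (s : List ℕ) : pathPotential 0 s = 0 := by
  induction s with
  | nil => rfl
  | cons a v ih => simp [pathPotential, ih]

lemma test_dlt (m : PotentialModel) (u : List ℕ) (hu : u ≠ [] ∨ m ≠ .rootlessSibling) :
    IsTest m (dlt u) := by
  refine ⟨pot_dlt_abs u, ?_⟩
  cases m with
  | rootlessSibling =>
    have hu' : u ≠ [] := by simpa using hu
    exact ⟨by simp [dlt, hu'.symm], fun r A => sum_dlt_sq u A (fun n => n :: r)
      (fun a b h => by simpa using h)⟩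
  | rootedSibling =>
    exact fun r A => sum_dlt_sq u A (fun n => n :: r) (fun a b h => by simpa using h)
  | antichain =>
    refine ⟨(Set.finite_singleton u).subset fun s hs => ?_,
      fun A _ => sum_dlt_sq u A id Function.injective_id⟩
    by_contra h
    exact hs (by simpa [dlt] using h)
  | global => exact fun A => sum_dlt_sq u A id Function.injective_id

lemma sib_sum (f : List ℕ → ℝ) (v : List ℕ) (A : Finset ℕ) :
    ∑ a ∈ A, f (a :: v) ^ 2 =
      ∑ u ∈ A.map ⟨fun a => a :: v, fun a b h => by simpa using h⟩, f u ^ 2 := by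
  simp

theorem goodT_model (m : PotentialModel) : GoodT (IsTest m) where
  bd f hf := hf.1
  zero := by
    refine ⟨fun s => by simp [pot_zero], ?_⟩
    cases m <;> simp [ExtraCondition]
  glue f g h α β hf hg hαβ hh hb := by
    refine ⟨hb, ?_⟩
    have h0 : ∀ s, f s = 0 → g s = 0 → h s = 0 := by
      intro s h1 h2
      have := hh s
      rw [h1, h2] at this
      exact pow_eq_zero_iff (two_ne_zero) |>.1 (le_antisymm (by simpa using this) (sq_nonneg _))
    cases m with
    | rootlessSibling =>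
      exact ⟨h0 _ hf.2.1 hg.2.1, fun r A => sum_glue A (fun n => f (n :: r)) (fun n => g (n :: r))
        (fun n => h (n :: r)) α β hαβ (fun n => hh _) (hf.2.2 r A) (hg.2.2 r A)⟩
    | rootedSibling =>
      exact fun r A => sum_glue A (fun n => f (n :: r)) (fun n => g (n :: r))
        (fun n => h (n :: r)) α β hαβ (fun n => hh _) (hf.2 r A) (hg.2 r A)
    | antichain =>
      refine ⟨(hf.2.1.union hg.2.1).subset fun s hs => ?_,
        fun A hA => sum_glue A f g h α β hαβ hh (hf.2.2 A hA) (hg.2.2 A hA)⟩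
      by_contra hcon
      simp only [Set.mem_union, Function.mem_support, not_or, not_not] at hcon
      exact hs (h0 s hcon.1 hcon.2)
    | global => exact fun A => sum_glue A f g h α β hαβ hh (hf.2 A) (hg.2 A)
  delta u := by
    by_cases hu : u ≠ [] ∨ m ≠ .rootlessSibling
    · exact Or.inl (test_dlt m u hu)
    · push Not at hu
      obtain ⟨rfl, rfl⟩ := hu
      exact Or.inr fun f hf => hf.2.1
  sib f hf v A := by
    cases m with
    | rootlessSibling => exact hf.2.2 v A
    | rootedSibling => exact hf.2 v A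
    | antichain =>
      rw [sib_sum]
      refine hf.2.2 _ ?_
      intro u hu w hw huw hs
      simp only [Finset.mem_map, Function.Embedding.coeFn_mk] at hu hw
      obtain ⟨a, -, rfl⟩ := hu
      obtain ⟨b, -, rfl⟩ := hw
      exact huw (hs.eq_of_length (by simp))
    | global => rw [sib_sum]; exact hf.2 _

theorem GoodT.mid {Tst : (List ℕ → ℝ) → Prop} (G : GoodT Tst) (t : ℝ) (x : G.sp) (hx : ‖x‖ = 1)
    (η : ℝ) (hη : 0 < η) : ∃ S : Submodule ℝ G.sp, Cof S ∧ ∀ y ∈ S, ‖y‖ = 1 →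
      Real.sqrt (1 + t ^ 2 / 4) - 1 - η ≤ (‖x + t • y‖ + ‖x - t • y‖) / 2 - 1 := by
  obtain ⟨x', hx', hd⟩ := G.dense_span.exists_dist_lt x (ε := η / 2) (by positivity)
  obtain ⟨S, hS, h⟩ := G.key x' hx'
  refine ⟨S, hS, fun y hy hy1 => ?_⟩
  have h1 := h (t • y) (S.smul_mem t hy)
  rw [norm_smul, hy1, mul_one, Real.norm_eq_abs, sq_abs] at h1
  rw [dist_eq_norm] at hd
  have h2 : Real.sqrt (‖x'‖ ^ 2 + t ^ 2 / 4) ≤ (‖x' + t • y‖ + ‖x' - t • y‖) / 2 := by
    rw [Real.sqrt_le_left (by positivity)]; linarith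
  have h3 := sqrt_lip ‖x'‖ (t ^ 2 / 4) (by positivity)
  have h4 : |1 - ‖x'‖| ≤ ‖x - x'‖ := by rw [← hx]; exact abs_norm_sub_norm_le x x'
  have h5 : ‖x' + t • y‖ ≤ ‖x + t • y‖ + ‖x - x'‖ := by
    have := norm_sub_le (x + t • y) (x - x')
    rwa [show x + t • y - (x - x') = x' + t • y by abel] at this
  have h6 : ‖x' - t • y‖ ≤ ‖x - t • y‖ + ‖x - x'‖ := by
    have := norm_sub_le (x - t • y) (x - x')
    rwa [show x - t • y - (x - x') = x' - t • y by abel] at this
  linarith

theorem four_main (m : PotentialModel) :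
    (bX (goodT_model m).sp).IsSeparableInfiniteDim ∧
      (∀ t : ℝ, (bX (goodT_model m).sp).MidpointModulusGE (bX (goodT_model m).sp).norm t
        (Real.sqrt (1 + t ^ 2 / 4) - 1)) ∧
      ∀ N : (goodT_model m).sp → ℝ, (bX (goodT_model m).sp).IsEquivNorm N →
        ¬ (bX (goodT_model m).sp).IsAUC N := by
  set G := goodT_model m
  refine ⟨⟨(inferInstance : TopologicalSpace.SeparableSpace G.sp), ?_⟩,
    fun t => midGE_of (G.mid t), fun N hN => ?_⟩
  · exact not_fd_of_seq (X := G.sp) (fun a => G.e [a]) 1 1 one_pos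
      (fun a => G.norm_e_ge _ (test_dlt m _ (by simp))) (G.norm_sum_e [])
  · refine not_auc_tree (fun _ => G.pv) 1 1 one_pos
      (fun _ v hv _ => ⟨G.norm_pv_ge v (test_dlt m v (Or.inl hv)), G.norm_pv_le v⟩)
      (fun _ v a _ _ => ?_) (fun _ v _ _ A => ?_) N hN
    · rw [G.pv_sub]; exact G.norm_e_ge _ (test_dlt m _ (by simp))
    · simp only [G.pv_sub]; exact G.norm_sum_e v A

end Crest.Agent.H0125
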