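import Mathlib
import Crest.Agent.H0125.Four
import Crest.Agent.H0125.Diamond

set_option autoImplicit false

namespace Crest.Agent.H0125
open Crest.AnalysisR Filter Topology
open Crest.AnalysisR.TreePotential

/-- global tests living on the vertices of depth at most `n` -/
def TN (n : ℕ) (f : List ℕ → ℝ) : Prop := IsTest .global f ∧ ∀ s : List ℕ, n < s.length → f s = 0

lemma TN_dlt (n : ℕ) (u : List ℕ) (hu : u.length ≤ n) : TN n (dlt u) := by
  refine ⟨test_dlt _ u (Or.inr (by simp)), fun s hs => ?_⟩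
  have : s ≠ u := by rintro rfl; omega
  simp [dlt, this]

theorem goodT_TN (n : ℕ) : GoodT (TN n) where
  bd f hf := hf.1.1
  zero := ⟨(goodT_model _).zero, fun _ _ => rfl⟩
  glue f g h α β hf hg hαβ hh hb := by
    refine ⟨(goodT_model _).glue f g h α β hf.1 hg.1 hαβ hh hb, fun s hs => ?_⟩
    have := hh s
    rw [hf.2 s hs, hg.2 s hs] at this
    exact pow_eq_zero_iff (two_ne_zero) |>.1 (le_antisymm (by simpa using this) (sq_nonneg _))
  delta u := by
    rcases le_or_gt u.length n with h | h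
    · exact Or.inl (TN_dlt n u h)
    · exact Or.inr fun f hf => hf.2 u h
  sib f hf := (goodT_model _).sib f hf.1

lemma pot_bound (n : ℕ) (f : List ℕ → ℝ) (m : ℝ) (h1 : ∀ s, |f s| ≤ m)
    (h2 : ∀ s : List ℕ, n < s.length → f s = 0) (s : List ℕ) :
    |pathPotential f s| ≤ ((min s.length n : ℕ) + 1) * m := by
  induction s with
  | nil => simpa [pathPotential] using h1 []
  | cons a v ih =>
    simp only [pathPotential]
    rcases le_or_gt (a :: v).length n with h | h
    · have h3 : min (a :: v).length n = min v.length n + 1 := by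
        simp only [List.length_cons] at h ⊢; omega
      rw [h3]
      refine (abs_add_le _ _).trans ?_
      push_cast at ih ⊢
      linarith [h1 (a :: v)]
    · have h3 : min (a :: v).length n = min v.length n := by
        simp only [List.length_cons] at h ⊢; omega
      rw [h3, h2 _ h, add_zero]
      exact ih

theorem refl_TN (n : ℕ) : Refl (goodT_TN n).sp := by
  classical
  set G := goodT_TN n
  let H := lp (fun _ : List ℕ => ℝ) 2
  have hH : Refl H := refl_l2 fun _ => refl_real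
  -- coordinates
  let co : List ℕ → G.sp →L[ℝ] ℝ := fun u => if h : u.length ≤ n then G.ev _ (TN_dlt n u h) else 0
  have hco : ∀ u s, co u (G.e s) = if s = u ∧ u.length ≤ n then 1 else 0 := by
    intro u s
    simp only [co]
    split_ifs with h1 h2 h2
    · simp [dlt, h2.1]
    · have : s ≠ u := fun h => h2 ⟨h, h1⟩
      simp [dlt, this]
    · exact absurd h2.2 h1
    · simp
  have hR : ∀ (x : G.sp) (A : Finset (List ℕ)), ∑ u ∈ A, ‖co u x‖ ^ 2 ≤ ((n + 1) * ‖x‖) ^ 2 := by
    intro x A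
    set σ := Real.sqrt (∑ u ∈ A, ‖co u x‖ ^ 2) with hσ
    have hσ0 : 0 ≤ σ := Real.sqrt_nonneg _
    have hσ2 : σ ^ 2 = ∑ u ∈ A, ‖co u x‖ ^ 2 :=
      Real.sq_sqrt (Finset.sum_nonneg fun _ _ => sq_nonneg _)
    rw [← hσ2]
    rcases hσ0.eq_or_lt with h0 | h0
    · rw [← h0]; simpa using sq_nonneg _
    let f : List ℕ → ℝ := fun u => if u ∈ A then co u x / (σ * (n + 1)) else 0
    have hn : (0 : ℝ) < n + 1 := by positivity
    have hf0 : ∀ s : List ℕ, n < s.length → f s = 0 := by
      intro s hs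
      simp only [f, co, dif_neg (not_le.2 hs)]
      simp
    have hf1 : ∀ s, |f s| ≤ 1 / (n + 1) := by
      intro s
      simp only [f]
      split_ifs with hs
      · rw [abs_div, abs_of_pos (by positivity : 0 < σ * (n + 1)), div_le_div_iff₀ (by positivity) hn]
        have : |co s x| ≤ σ := by
          apply Real.abs_le_sqrt
          have := Finset.single_le_sum (f := fun u => ‖co u x‖ ^ 2) (fun _ _ => sq_nonneg _) hs
          simpa using this
        nlinarith
      · simp; positivity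
    have hft : TN n f := by
      refine ⟨⟨fun s => (pot_bound n f _ hf1 hf0 s).trans ?_, fun B => ?_⟩, hf0⟩
      · rw [mul_one_div, div_le_one hn]
        have : ((min s.length n : ℕ) : ℝ) ≤ n := Nat.cast_le.2 (min_le_right _ _)
        linarith
      · have h1 : ∑ u ∈ B, f u ^ 2 ≤ ∑ u ∈ A ∪ B, f u ^ 2 :=
          Finset.sum_le_sum_of_subset_of_nonneg Finset.subset_union_right fun _ _ _ => sq_nonneg _
        have h2 : ∑ u ∈ A, f u ^ 2 = ∑ u ∈ A ∪ B, f u ^ 2 :=
          Finset.sum_subset Finset.subset_union_left fun u _ hu => by simp [f, hu]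
        have h3 : ∑ u ∈ A, f u ^ 2 = σ ^ 2 / (σ * (n + 1)) ^ 2 := by
          rw [hσ2, Finset.sum_div]
          refine Finset.sum_congr rfl fun u hu => ?_
          simp [f, hu, div_pow]
        have h4 : σ ^ 2 / (σ * (n + 1)) ^ 2 ≤ 1 := by
          rw [div_le_one (by positivity)]
          gcongr
          nlinarith [Nat.cast_nonneg (α := ℝ) n]
        linarith
    have hL : G.ev f hft = ∑ u ∈ A, f u • co u := by
      refine G.ext_clm fun s => ?_
      simp only [GoodT.ev_e, _root_.sum_apply, _root_.smul_apply, hco, smul_eq_mul]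
      by_cases hs : s ∈ A
      · rw [Finset.sum_eq_single s (fun u _ hu => by simp [hu.symm]) (fun h => absurd hs h)]
        rcases le_or_gt s.length n with h | h
        · simp [h]
        · simp [hf0 s h]
      · rw [Finset.sum_eq_zero fun u hu => by
          have : s ≠ u := by rintro rfl; exact hs hu
          simp [this]]
        simp [f, hs]
    have h5 : G.ev f hft x = σ / (n + 1) := by
      rw [hL]
      simp only [_root_.sum_apply, _root_.smul_apply, smul_eq_mul]
      have : ∑ u ∈ A, f u * co u x = σ ^ 2 / (σ * (n + 1)) := by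
        rw [hσ2, Finset.sum_div]
        refine Finset.sum_congr rfl fun u hu => ?_
        simp only [f, if_pos hu, Real.norm_eq_abs, sq_abs]
        ring
      rw [this]; field_simp
    have h6 := (le_abs_self _).trans (G.ev_le f hft x)
    rw [h5, div_le_iff₀ hn] at h6
    gcongr
    linarith
  let R : G.sp →L[ℝ] H := LinearMap.mkContinuous
    { toFun := fun x => ⟨fun u => co u x, l2_mem (hR x)⟩
      map_add' := fun x y => by ext u; simp only [map_add]; rfl
      map_smul' := fun c x => by ext u; simp only [map_smul]; rfl } (n + 1)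
    fun x => l2_norm_le (by positivity) (hR x)
  have hRa : ∀ x u, R x u = co u x := fun _ _ => rfl
  -- synthesis
  let tf : {f // TN n f} → H := fun f => ⟨f.1, l2_mem (C := 1) fun A => by
    simpa only [Real.norm_eq_abs, sq_abs] using f.2.1.2 A⟩
  have htf : ∀ f, ‖tf f‖ ≤ 1 := fun f => l2_norm_le zero_le_one fun A => by
    simpa only [Real.norm_eq_abs, sq_abs, one_pow] using f.2.1.2 A
  have hb : ∀ (c : H) f, ‖inner ℝ (tf f) c‖ ≤ ‖c‖ := fun c f =>
    (norm_inner_le_norm _ _).trans (mul_le_of_le_one_left (norm_nonneg _) (htf f))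
  let J₀ : H →L[ℝ] lp (fun _ : {f // TN n f} => ℝ) ⊤ := LinearMap.mkContinuous
    { toFun := fun c => ⟨fun f => inner ℝ (tf f) c, memℓp_infty ⟨‖c‖, by
        rintro _ ⟨f, rfl⟩; exact hb c f⟩⟩
      map_add' := fun x y => by ext f; simp only [inner_add_right]; rfl
      map_smul' := fun c x => by ext f; simp only [inner_smul_right]; rfl } 1
    fun c => lp.norm_le_of_forall_le (by positivity) fun f => by rw [one_mul]; exact hb c f
  have hJa : ∀ c f, J₀ c f = inner ℝ (tf f) c := fun _ _ => rfl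
  have hJs : ∀ s (a : ℝ), J₀ (lp.single 2 s a) = a • G.cv s := by
    intro s a
    ext f
    rw [hJa, lp.inner_single_right]
    simp only [lp.coeFn_smul, Pi.smul_apply, smul_eq_mul, RCLike.inner_apply, conj_trivial]
    rfl
  have hJm : ∀ c, J₀ c ∈ G.sp := by
    intro c
    refine mem_closure_of_tendsto (J₀.hasSum (lp.hasSum_single (by norm_num) c))
      (Eventually.of_forall fun A => ?_)
    refine Submodule.sum_mem _ fun s _ => ?_
    rw [hJs]
    exact Submodule.smul_mem _ _ (Submodule.subset_span ⟨s, rfl⟩)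
  let J : H →L[ℝ] G.sp := J₀.codRestrict G.sp hJm
  refine hH.retract J R fun x => ?_
  have : J.comp R = ContinuousLinearMap.id ℝ G.sp := by
    refine G.ext_clm fun s => ?_
    have h1 : R (G.e s) = lp.single 2 s (if s.length ≤ n then 1 else 0) := by
      ext u
      rw [hRa, hco, lp.single_apply, Pi.single_apply]
      by_cases h : u = s
      · subst h; simp
      · simp [h, Ne.symm h]
    apply Subtype.ext
    change J₀ (R (G.e s)) = G.cv s
    rw [h1, hJs]
    split_ifs with h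
    · simp
    · ext f
      simp only [zero_smul, lp.coeFn_zero, Pi.zero_apply]
      exact (f.2.2 s (not_le.1 h)).symm
  exact congrArg (fun L : G.sp →L[ℝ] G.sp => L x) this

lemma GoodT.star {Tst : (List ℕ → ℝ) → Prop} (G : GoodT Tst) (x : G.sp) (ε : ℝ) (hε : 0 < ε) :
    ∃ x', ‖x - x'‖ < ε ∧ Star x' := by
  obtain ⟨x', hx', hd⟩ := G.dense_span.exists_dist_lt x hε
  obtain ⟨S, hS, h⟩ := G.key x' hx'
  refine ⟨x', by rwa [← dist_eq_norm], S, hS, fun y hy => (h y hy).trans ?_⟩
  nlinarith [sq_nonneg (‖x' + y‖ - ‖x' - y‖)]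

/-- lower bounds from the star property -/
lemma star_bounds {V : Type*} [NormedAddCommGroup V] [NormedSpace ℝ V]
    (hV : ∀ (x : V) (ε : ℝ), 0 < ε → ∃ x', ‖x - x'‖ < ε ∧ Star x') (t : ℝ) (x : V) (hx : ‖x‖ = 1)
    (η : ℝ) (hη : 0 < η) : ∃ S : Submodule ℝ V, Cof S ∧ ∀ y ∈ S, ‖y‖ = 1 →
      (Real.sqrt (1 + t ^ 2 / 12) - 1 - η ≤ (‖x + t • y‖ + ‖x - t • y‖) / 2 - 1) ∧
      ((Real.sqrt (1 + t ^ 2 / 4) - 1) / 2 - η ≤ (‖x + t • y‖ + ‖x - t • y‖) / 2 - 1) ∧
      (Real.sqrt (1 + t ^ 2 / 4) - 1 - η ≤ max ‖x + t • y‖ ‖x - t • y‖ - 1) := by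
  obtain ⟨x', hd, S, hS, h⟩ := hV x (η / 2) (by positivity)
  obtain ⟨g, hg, hgx⟩ := exists_dual_vector'' ℝ x'
  refine ⟨S ⊓ LinearMap.ker (g : V →ₗ[ℝ] ℝ), cof_inf hS (cof_ker g), fun y hy hy1 => ?_⟩
  have hn : ∀ c : ℝ, ‖x'‖ ≤ ‖x' + c • y‖ := by
    intro c
    have hy0 : g y = 0 := hy.2
    have h1 := g.le_opNorm (x' + c • y)
    rw [map_add, map_smul, hy0, smul_zero, add_zero, hgx] at h1
    simp only [RCLike.ofReal_real_eq_id, id_eq, norm_norm] at h1
    exact h1.trans (mul_le_of_le_one_left (norm_nonneg _) hg)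
  have h1 := h (t • y) (S.smul_mem t hy.1)
  rw [norm_smul, hy1, mul_one, Real.norm_eq_abs, sq_abs] at h1
  have ha := hn t
  have hb := hn (-t)
  rw [neg_smul, ← sub_eq_add_neg] at hb
  have h4 : |1 - ‖x'‖| ≤ ‖x - x'‖ := by rw [← hx]; exact abs_norm_sub_norm_le x x'
  have h5 : ‖x' + t • y‖ ≤ ‖x + t • y‖ + ‖x - x'‖ := by
    have := norm_sub_le (x + t • y) (x - x')
    rwa [show x + t • y - (x - x') = x' + t • y by abel] at this
  have h6 : ‖x' - t • y‖ ≤ ‖x - t • y‖ + ‖x - x'‖ := by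
    have := norm_sub_le (x - t • y) (x - x')
    rwa [show x - t • y - (x - x') = x' - t • y by abel] at this
  set a := ‖x' + t • y‖
  set b := ‖x' - t • y‖
  set r := ‖x'‖
  have hr : 0 ≤ r := norm_nonneg _
  have h7 : Real.sqrt (r ^ 2 + t ^ 2 / 12) ≤ (a + b) / 2 := by
    rw [Real.sqrt_le_left (by linarith)]
    have : r * r ≤ a * b := mul_le_mul ha hb hr (by linarith)
    nlinarith [sq_nonneg t]
  have h8 : Real.sqrt (r ^ 2 + t ^ 2 / 4) ≤ max a b := by
    have ha' := le_max_left a b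
    have hb' := le_max_right a b
    rw [Real.sqrt_le_left (by linarith)]
    have e1 : a ^ 2 ≤ (max a b) ^ 2 := by gcongr
    have e2 : b ^ 2 ≤ (max a b) ^ 2 := by gcongr
    linarith
  have h9 := sqrt_lip r (t ^ 2 / 12) (by positivity)
  have h10 := sqrt_lip r (t ^ 2 / 4) (by positivity)
  have h11 := le_abs_self (1 - r)
  refine ⟨by linarith, ?_, ?_⟩
  · rcases le_total a b with h | h
    · rw [max_eq_right h] at h8; linarith
    · rw [max_eq_left h] at h8; linarith
  · have := le_max_left ‖x + t • y‖ ‖x - t • y‖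
    have := le_max_right ‖x + t • y‖ ‖x - t • y‖
    rcases le_total a b with h | h
    · rw [max_eq_right h] at h8; linarith
    · rw [max_eq_left h] at h8; linarith

/-- the space -/
abbrev EE : Type := lp (fun n : ℕ => (goodT_TN n).sp) 2

lemma EE_star (x : EE) (ε : ℝ) (hε : 0 < ε) : ∃ x', ‖x - x'‖ < ε ∧ Star x' :=
  star_l2 (fun n => (goodT_TN n).star) x ε hε

theorem EE_main :
    ∃ E : RealBanach, E.IsSeparableInfiniteDim ∧ E.IsReflexive ∧
      (∀ t : ℝ, 0 < t → E.MidpointModulusGE E.norm t (Real.sqrt (1 + t ^ 2 / 12) - 1) ∧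
        E.MidpointModulusGE E.norm t ((Real.sqrt (1 + t ^ 2 / 4) - 1) / 2) ∧
        E.MaxMidpointModulusGE E.norm t (Real.sqrt (1 + t ^ 2 / 4) - 1)) ∧
      (∀ N : E.X → ℝ, E.IsEquivNorm N → ¬ E.IsAUC N) ∧
      ∀ (k : ℕ) (f : DiamondVertex k → E.X) (D : ℝ),
        E.HasDistortionLE k f D → 1 + (k : ℝ) / 4 ≤ D ^ 2 := by
  let j : ∀ n, (goodT_TN n).sp →L[ℝ] EE := fun n =>
    lp.singleContinuousLinearMap ℝ (fun n : ℕ => (goodT_TN n).sp) 2 n
  have hj : ∀ n x, ‖j n x‖ = ‖x‖ := fun n x =>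
    lp.norm_single (E := fun n : ℕ => (goodT_TN n).sp) (p := 2) (by norm_num) n x
  refine ⟨bX EE, ⟨(sep_l2 : TopologicalSpace.SeparableSpace EE), ?_⟩, ?_, fun t _ => ⟨?_, ?_, ?_⟩,
    fun N hN => ?_, ?_⟩
  · refine not_fd_of_seq (X := EE) (fun a => j 1 ((goodT_TN 1).e [a])) 1 1 one_pos
      (fun a => ?_) (fun A => ?_)
    · rw [hj]; exact (goodT_TN 1).norm_e_ge _ (TN_dlt 1 _ (by simp))
    · rw [← map_sum, hj]; exact (goodT_TN 1).norm_sum_e [] A
  · intro Φ
    obtain ⟨x, hx⟩ := refl_l2 refl_TN Φ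
    exact ⟨x, ContinuousLinearMap.ext fun φ => (hx φ).symm⟩
  · refine midGE_of fun x hx η hη => ?_
    obtain ⟨S, hS, h⟩ := star_bounds EE_star t x hx η hη
    exact ⟨S, hS, fun y hy hy1 => (h y hy hy1).1⟩
  · refine midGE_of fun x hx η hη => ?_
    obtain ⟨S, hS, h⟩ := star_bounds EE_star t x hx η hη
    exact ⟨S, hS, fun y hy hy1 => (h y hy hy1).2.1⟩
  · refine maxGE_of fun x hx η hη => ?_
    obtain ⟨S, hS, h⟩ := star_bounds EE_star t x hx η hη
    exact ⟨S, hS, fun y hy hy1 => (h y hy hy1).2.2⟩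
  · refine not_auc_tree (X := EE) (fun n v => j n ((goodT_TN n).pv v)) 1 1 one_pos
      (fun n v _ hl => ?_) (fun n v a _ hl => ?_) (fun n v _ _ A => ?_) N hN
    · rw [hj]
      exact ⟨(goodT_TN n).norm_pv_ge v (TN_dlt n v hl), (goodT_TN n).norm_pv_le v⟩
    · rw [← map_sub, hj, GoodT.pv_sub]
      exact (goodT_TN n).norm_e_ge _ (TN_dlt n _ hl)
    · simp only [← map_sub, GoodT.pv_sub]
      rw [← map_sum, hj]; exact (goodT_TN n).norm_sum_e v A
  · rintro k f D ⟨s, hs, h⟩
    have h' : ∀ u v : DiamondVertex k, s * (diamondDist k u v : ℝ) ≤ ‖(f u : EE) - (f v : EE)‖ ∧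
        ‖(f u : EE) - (f v : EE)‖ ≤ D * s * (diamondDist k u v : ℝ) := h
    have := diamond_ind EE_star k f s ((D * s) ^ 2) hs.le (fun u v => (h' u v).1) (fun e => by
      have h1 := (h' (diamondSrc k e) (diamondTgt k e)).2
      have h4 : diamondDist k (diamondSrc k e) (diamondTgt k e) = 1 :=
        SimpleGraph.dist_eq_one_iff_adj.2 (adj_edge k e)
      rw [h4, Nat.cast_one, mul_one] at h1
      gcongr)
    rw [mul_pow, mul_comm (D ^ 2)] at this
    exact le_of_mul_le_mul_left this (by positivity)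

end Crest.Agent.H0125
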