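import Mathlib
import Crest.Prelude.Def_TreeProducts
import Crest.Agent.H0125.Basic

set_option autoImplicit false

namespace Crest.Agent.H0125
open Crest.AnalysisR Filter Topology MeasureTheory ProbabilityTheory
open Crest.AnalysisR.TreeProduct

/-- non-root ancestors -/
def sfx : List ℕ → Finset (List ℕ)
  | [] => ∅
  | a :: v => insert (a :: v) (sfx v)

lemma length_le_of_mem_sfx : ∀ (v u : List ℕ), u ∈ sfx v → u.length ≤ v.length
  | [], u, h => by simp [sfx] at h
  | a :: v, u, h => by
    simp only [sfx, Finset.mem_insert] at h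
    rcases h with rfl | h
    · exact le_rfl
    · have := length_le_of_mem_sfx v u h
      simp; omega

lemma cons_not_mem_sfx (a : ℕ) (v : List ℕ) : a :: v ∉ sfx v := fun h => by
  have := length_le_of_mem_sfx _ _ h
  simp at this

section
variable {Ω : Type} [MeasurableSpace Ω] {μ : Measure Ω} {W : List ℕ → Ω → ℝ}

omit [MeasurableSpace Ω] in
lemma pathProduct_eq (v : List ℕ) (z : Ω) : pathProduct W v z = ∏ u ∈ sfx v, W u z := by
  induction v with
  | nil => simp [pathProduct, sfx]
  | cons a v ih =>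
    simp only [pathProduct, sfx]
    rw [Finset.prod_insert (cons_not_mem_sfx a v), ih, mul_comm]

lemma measurable_pathProduct (hW : ∀ v, Measurable (W v)) (v : List ℕ) :
    Measurable (pathProduct W v) := by
  induction v with
  | nil => exact measurable_const
  | cons a v ih => exact ih.mul (hW _)

lemma indep_path (hW : ∀ v, Measurable (W v)) (hI : iIndepFun W μ) (v : List ℕ) (A : Finset ℕ)
    (g : ℝ → ℝ) (hg : Measurable g) :
    IndepFun (pathProduct W v) (fun z => ∑ a ∈ A, g (W (a :: v) z)) μ := by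
  classical
  let T : Finset (List ℕ) := A.map ⟨fun a => a :: v, fun a b h => by simpa using h⟩
  have hdisj : Disjoint (sfx v) T := by
    rw [Finset.disjoint_right]
    intro u hu
    simp only [T, Finset.mem_map, Function.Embedding.coeFn_mk] at hu
    obtain ⟨a, -, rfl⟩ := hu
    exact cons_not_mem_sfx a v
  have h := hI.indepFun_finset (sfx v) T hdisj hW
  have h2 := h.comp (φ := fun x : sfx v → ℝ => ∏ i, x i) (ψ := fun x : T → ℝ => ∑ i, g (x i))
    (by fun_prop) (by fun_prop)
  convert h2 using 1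
  · funext z
    simp only [Function.comp]
    rw [pathProduct_eq, Finset.prod_coe_sort (sfx v) (fun u => W u z)]
  · funext z
    simp only [Function.comp]
    rw [Finset.sum_coe_sort T (fun u => g (W u z))]
    simp [T]

end

theorem prod_main (ν : Measure ℝ) [IsProbabilityMeasure ν] (hpos : ν (Set.Ioi 0) = 1)
    (hnc : ∀ c : ℝ, ν ≠ Measure.dirac c) (hmean : ∫ x, x ∂ν = 1)
    (hm2 : Integrable (fun x : ℝ => x ^ 2) ν)
    (Ω : Type) [MeasurableSpace Ω] (μ : Measure Ω) [IsProbabilityMeasure μ]
    (W : List ℕ → Ω → ℝ) (hW : IsRealization ν μ W) :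
    ∃ (p : List ℕ → productSpan μ W) (δ C : ℝ), 0 < δ ∧ (∀ v, δ ≤ ‖p v‖ ∧ ‖p v‖ ≤ C) ∧
      (∀ v a, δ ≤ ‖p (a :: v) - p v‖) ∧
      ∀ v (A : Finset ℕ), ‖∑ a ∈ A, (p (a :: v) - p v)‖ ≤ C * Real.sqrt A.card := by
  obtain ⟨hm, hI, hlaw⟩ := hW
  have hν2 : MemLp (fun x : ℝ => x) 2 ν :=
    (memLp_two_iff_integrable_sq measurable_id.aestronglyMeasurable).2 hm2
  have hW2 : ∀ a v, MemLp (W (a :: v)) 2 μ := by
    intro a v
    have := hν2
    rw [← hlaw (a :: v) (by simp)] at this
    exact (memLp_map_measure_iff measurable_id.aestronglyMeasurable (hm _).aemeasurable).1 this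
  have hint : ∀ (g : ℝ → ℝ), Measurable g → ∀ a v, ∫ z, g (W (a :: v) z) ∂μ = ∫ x, g x ∂ν := by
    intro g hg a v
    rw [← hlaw (a :: v) (by simp), integral_map (hm _).aemeasurable hg.aestronglyMeasurable]
  have hνpos : ∀ᵐ x ∂ν, 0 < x := by
    have := (prob_compl_eq_zero_iff (μ := ν) (measurableSet_Ioi (a := (0 : ℝ)))).2 hpos
    exact this
  have habs : ∫ x, |x| ∂ν = 1 := by
    rw [← hmean]
    refine integral_congr_ae ?_
    filter_upwards [hνpos] with x hx using abs_of_pos hx
  have hPI : ∀ v a, IndepFun (pathProduct W v) (W (a :: v)) μ := by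
    intro v a
    simpa using indep_path hm hI v {a} id measurable_id
  have hP : ∀ v, Integrable (pathProduct W v) μ ∧ ∫ z, |pathProduct W v z| ∂μ = 1 := by
    intro v
    induction v with
    | nil => simp [pathProduct]
    | cons a v ih =>
      refine ⟨(hPI v a).integrable_mul ih.1 ((hW2 a v).integrable one_le_two), ?_⟩
      simp only [pathProduct, abs_mul]
      have := ((hPI v a).comp measurable_abs measurable_abs).integral_fun_mul_eq_mul_integral
        (measurable_abs.comp (measurable_pathProduct hm v)).aestronglyMeasurable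
        (measurable_abs.comp (hm _)).aestronglyMeasurable
      simp only [Function.comp] at this
      rw [this, ih.2, hint _ measurable_abs, habs, one_mul]
  let q : List ℕ → Lp ℝ 1 μ := fun v => (hP v).1.toL1 _
  have hq : ∀ v, (q v : Ω → ℝ) =ᵐ[μ] pathProduct W v := fun v => Integrable.coeFn_toL1 _
  have hqmem : ∀ v, q v ∈ productSpan μ W := fun v =>
    Submodule.le_topologicalClosure _ (Submodule.subset_span ⟨v, hq v⟩)
  -- the sums
  have hsum : ∀ v (A : Finset ℕ), ‖∑ a ∈ A, (q (a :: v) - q v)‖ =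
      ∫ z, |∑ a ∈ A, (W (a :: v) z - 1)| ∂μ := by
    intro v A
    rw [L1.norm_eq_integral_norm]
    have h1 : ((∑ a ∈ A, (q (a :: v) - q v) : Lp ℝ 1 μ) : Ω → ℝ) =ᵐ[μ]
        fun z => pathProduct W v z * ∑ a ∈ A, (W (a :: v) z - 1) := by
      classical
      induction A using Finset.induction_on with
      | empty =>
        filter_upwards [Lp.coeFn_zero ℝ 1 μ] with z hz
        simpa using hz
      | insert a A ha ih =>
        simp only [Finset.sum_insert ha]
        filter_upwards [ih, Lp.coeFn_add (q (a :: v) - q v) (∑ a ∈ A, (q (a :: v) - q v)),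
          Lp.coeFn_sub (q (a :: v)) (q v), hq v, hq (a :: v)] with z h1 h2 h3 h4 h5
        rw [h2, Pi.add_apply, h1, h3, Pi.sub_apply, h4, h5]
        simp only [pathProduct]; ring
    have h2 : ∫ z, ‖((∑ a ∈ A, (q (a :: v) - q v) : Lp ℝ 1 μ) : Ω → ℝ) z‖ ∂μ =
        ∫ z, |pathProduct W v z| * |∑ a ∈ A, (W (a :: v) z - 1)| ∂μ := by
      refine integral_congr_ae ?_
      filter_upwards [h1] with z hz
      rw [hz, Real.norm_eq_abs, abs_mul]
    rw [h2]
    have hYm : Measurable fun z => ∑ a ∈ A, (W (a :: v) z - 1) :=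
      Finset.measurable_sum _ fun a _ => (hm _).sub_const 1
    have := ((indep_path hm hI v A (fun x => x - 1) (by fun_prop)).comp measurable_abs
      measurable_abs).integral_fun_mul_eq_mul_integral
        (measurable_abs.comp (measurable_pathProduct hm v)).aestronglyMeasurable
        (measurable_abs.comp hYm).aestronglyMeasurable
    simp only [Function.comp] at this
    rw [this, (hP v).2, one_mul]
  set δ := ∫ x, |x - 1| ∂ν with hδ
  have hδ0 : 0 < δ := by
    have hi : Integrable (fun x : ℝ => |x - 1|) ν :=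
      ((hν2.integrable one_le_two).sub (integrable_const 1)).abs
    rcases (integral_nonneg (μ := ν) (f := fun x : ℝ => |x - 1|) fun x => abs_nonneg _).lt_or_eq
      with h | h
    · exact h
    · exfalso
      have h0 := (integral_eq_zero_iff_of_nonneg (fun x => abs_nonneg _) hi).1 h.symm
      apply hnc 1
      have h1 : (id : ℝ → ℝ) =ᵐ[ν] fun _ => 1 := by
        filter_upwards [h0] with x hx
        simpa [sub_eq_zero] using hx
      have : Measure.map id ν = Measure.map (fun _ => (1 : ℝ)) ν := Measure.map_congr h1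
      rw [Measure.map_id, Measure.map_const] at this
      simpa using this
  set σ := Real.sqrt (Var[fun x : ℝ => x; ν]) with hσ
  have hvar : ∀ v (A : Finset ℕ), ∫ z, |∑ a ∈ A, (W (a :: v) z - 1)| ∂μ ≤ σ * Real.sqrt A.card := by
    intro v A
    let Y : ℕ → Ω → ℝ := fun a z => W (a :: v) z - 1
    have hY2 : ∀ a, MemLp (Y a) 2 μ := fun a => (hW2 a v).sub (memLp_const 1)
    have hYi : (A : Set ℕ).Pairwise fun i j => IndepFun (Y i) (Y j) μ := by
      intro i _ j _ hij
      exact (hI.indepFun (i := i :: v) (j := j :: v) (by simpa using hij)).comp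
        (φ := fun x => x - 1) (ψ := fun x => x - 1) (by fun_prop) (by fun_prop)
    have hv := IndepFun.variance_sum (fun a _ => hY2 a) hYi
    have hvY : ∀ a, Var[Y a; μ] = Var[fun x : ℝ => x; ν] := by
      intro a
      have h1 : Var[Y a; μ] = Var[W (a :: v); μ] :=
        variance_sub_const (hm _).aestronglyMeasurable 1
      rw [h1, ← hlaw (a :: v) (by simp), variance_map (X := fun x : ℝ => x)
        measurable_id.aemeasurable (hm _).aemeasurable]
      rfl
    simp only [hvY, Finset.sum_const, nsmul_eq_mul] at hv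
    have hS2 : MemLp (∑ a ∈ A, Y a) 2 μ := memLp_finsetSum' _ fun a _ => hY2 a
    have hmean0 : μ[∑ a ∈ A, Y a] = 0 := by
      have : (∑ a ∈ A, Y a) = fun z => ∑ a ∈ A, Y a z := by funext z; simp
      rw [this, integral_finsetSum _ fun a _ => (hY2 a).integrable one_le_two]
      refine Finset.sum_eq_zero fun a _ => ?_
      simp only [Y]
      rw [hint (fun x => x - 1) (by fun_prop), integral_sub (hν2.integrable one_le_two)
        (integrable_const 1), hmean]
      simp
    rw [variance_of_integral_eq_zero hS2.aemeasurable hmean0] at hv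
    have hA2 : MemLp (fun z => |(∑ a ∈ A, Y a) z|) 2 μ := hS2.abs
    have h3 := variance_nonneg (fun z => |(∑ a ∈ A, Y a) z|) μ
    rw [variance_eq_sub hA2] at h3
    have h4 : μ[(fun z => |(∑ a ∈ A, Y a) z|) ^ 2] = ∫ z, (∑ a ∈ A, Y a) z ^ 2 ∂μ := by
      simp [sq_abs]
    rw [h4, hv] at h3
    have h5 : ∫ z, |∑ a ∈ A, (W (a :: v) z - 1)| ∂μ = ∫ z, |(∑ a ∈ A, Y a) z| ∂μ := by
      simp [Y]
    rw [h5, hσ, ← Real.sqrt_mul (variance_nonneg _ _)]
    apply Real.le_sqrt_of_sq_le
    linarith
  refine ⟨fun v => ⟨q v, hqmem v⟩, min δ 1, max σ 1, lt_min hδ0 one_pos, ?_, ?_, ?_⟩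
  · intro v
    have : ‖(⟨q v, hqmem v⟩ : productSpan μ W)‖ = 1 := by
      change ‖q v‖ = 1
      rw [L1.norm_eq_integral_norm, ← (hP v).2]
      refine integral_congr_ae ?_
      filter_upwards [hq v] with z hz
      rw [hz, Real.norm_eq_abs]
    rw [this]
    exact ⟨min_le_right _ _, le_max_right _ _⟩
  · intro v a
    change min δ 1 ≤ ‖q (a :: v) - q v‖
    have := hsum v {a}
    simp only [Finset.sum_singleton] at this
    rw [this, hint (fun x => |x - 1|) (by fun_prop)]
    exact min_le_left _ _
  · intro v A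
    have : ‖∑ a ∈ A, ((⟨q (a :: v), hqmem _⟩ : productSpan μ W) - ⟨q v, hqmem v⟩)‖ =
        ‖∑ a ∈ A, (q (a :: v) - q v)‖ := by
      rw [Submodule.coe_norm]
      simp
    rw [this, hsum]
    refine (hvar v A).trans ?_
    gcongr
    exact le_max_left _ _

end Crest.Agent.H0125
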